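import Vale.Agent.P141.H927.Spec2
import Vale.Agent.P141.H650.Spec.CE1N
import Vale.Agent.P141.H639.CenSt

/-!
# P141, CE with an active set: `CE1M → CE1StM → CenStM`

`SupB`: the rows of an edge vanish off a set of small density; `clo_supB`: inherited by parts.
-/

namespace Vale.Agent.P141.H490.CenM

open Finset Vale.Agent.P141.H48
open Vale.Agent.P141.PL (Pt fc loc cx)
open Vale.Agent.P141.PL.H315 (iv cube3 avg)
open Vale.Agent.P141.PL.H95 (gr)
open Vale.Agent.P141.H347.Gs (Ex e2 e2_pos kap cwG)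
open Vale.Agent.P141.H736 (cost)
open Vale.Agent.P141.H136 (comp)
open Vale.Agent.P141.H572 (cosF)
open Vale.Agent.P141.H971 (Cen)
open Vale.Agent.P141.H639
open Vale.Agent.P141.H650 (cosF_congr cosF_smul cosF_zero Cen.norm Cen.mono_K Cen.zero_of)
open Vale.Agent.P141.H927 (CE1M CE1StM CenStM)

noncomputable section

open scoped Classical

/-! ### The density of the support -/

/-- the rows of `u` vanish off a set of small density -/
def SupB {V : Type*} [Zero V] (a B : ℝ) (I J : Finset ℤ) (u : ℤ → ℤ → V) : Prop :=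
  ∃ X : Finset ℤ, (avg I fun z => if z ∈ X then (1 : ℝ) else 0) * a ≤ B ∧
    ∀ z ∈ I, z ∉ X → ∀ y ∈ J, u z y = 0

theorem avg_ind (I X : Finset ℤ) :
    (avg I fun z => if z ∈ X then (1 : ℝ) else 0) = (I.card : ℝ)⁻¹ * ((I.filter (· ∈ X)).card) := by
  unfold Vale.Agent.P141.PL.H315.avg
  rw [← sum_filter, sum_const, nsmul_eq_mul, mul_one]

theorem clo_supB {V : Type*} [AddCommMonoid V] {a B : ℝ} (ha : 0 ≤ a) :
    Clo (V := V) (SupB a B) := by
  rintro I J f I' J' f' hI hJ ⟨K1, K2, s1, s2, h1, h2, h3, h4, h5⟩ ⟨X, hX, h6⟩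
  refine ⟨I'.filter fun z => K1 z ∧ s1 z ∈ X, ?_, ?_⟩
  · refine le_trans (mul_le_mul_of_nonneg_right ?_ ha) hX
    rw [avg_ind, avg_ind, hI]
    refine mul_le_mul_of_nonneg_left ?_ (by positivity)
    have e : (I'.filter (· ∈ I'.filter fun z => K1 z ∧ s1 z ∈ X)).card ≤
        (I.filter (· ∈ X)).card := by
      refine card_le_card_of_injOn s1 ?_ ?_
      · intro z hz
        have hz' := (mem_filter.1 (mem_coe.1 hz)).2
        have hz2 := mem_filter.1 hz'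
        exact mem_coe.2 (mem_filter.2 ⟨h1 z hz2.1 hz2.2.1, hz2.2.2⟩)
      · intro z hz z' hz' e
        have hz1 := mem_filter.1 (mem_filter.1 (mem_coe.1 hz)).2
        have hz2 := mem_filter.1 (mem_filter.1 (mem_coe.1 hz')).2
        exact h2 z hz1.1 z' hz2.1 hz1.2.1 hz2.2.1 e
    exact_mod_cast e
  · intro z hz hzX y hy
    by_cases hK : K1 z ∧ K2 y
    · rw [(h5 z hz y hy).1 hK]
      refine h6 _ (h1 z hz hK.1) (fun hc => hzX ?_) _ (h3 y hy hK.2)
      exact mem_filter.2 ⟨hz, hK.1, hc⟩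
    · exact (h5 z hz y hy).2 hK

theorem sub_self {V : Type*} [AddCommMonoid V] {I J : Finset ℤ} {f f' : ℤ → ℤ → V}
    (h : ∀ a ∈ I, ∀ b ∈ J, f' a b = f a b) : Sub I J f I J f' :=
  ⟨fun _ => True, fun _ => True, id, id, fun _ ha _ => ha, fun _ _ _ _ _ _ e => e,
    fun _ hb _ => hb, fun _ _ _ _ _ _ e => e,
    fun a ha b hb => ⟨fun _ => h a ha b hb, fun h' => absurd ⟨trivial, trivial⟩ h'⟩⟩

theorem avg_union (I X Y : Finset ℤ) {a B B' : ℝ} (ha : 0 ≤ a)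
    (h : (avg I fun z => if z ∈ X then (1 : ℝ) else 0) * a ≤ B)
    (h' : (avg I fun z => if z ∈ Y then (1 : ℝ) else 0) * a ≤ B') :
    (avg I fun z => if z ∈ X ∪ Y then (1 : ℝ) else 0) * a ≤ B + B' := by
  have e : (avg I fun z => if z ∈ X ∪ Y then (1 : ℝ) else 0) ≤
      (avg I fun z => if z ∈ X then (1 : ℝ) else 0) +
        avg I fun z => if z ∈ Y then (1 : ℝ) else 0 := by
    unfold Vale.Agent.P141.PL.H315.avg
    rw [← mul_add, ← sum_add_distrib]
    refine mul_le_mul_of_nonneg_left (sum_le_sum fun z _ => ?_) (by positivity)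
    by_cases h1 : z ∈ X <;> by_cases h2 : z ∈ Y <;> simp [h1, h2]
  have := mul_le_mul_of_nonneg_right e ha
  rw [add_mul] at this
  linarith

/-! ### From normalised data to all data -/

/-- **From normalised data to all data.** -/
theorem ce1StM_of_m (H : CE1M) : CE1StM := by
  obtain ⟨a, gam, c1, ha, ha', hg, hc1, H⟩ := H
  refine ⟨a, gam, c1, ha, ha', hg, hc1, fun c hc hcc Kt e cP L e0 hK he hcP hL he0 => ?_⟩
  obtain ⟨C, hC, H⟩ := H c hc hcc Kt e cP (L / e0 + L) hK he hcP (by positivity)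
  refine ⟨e0 * C, by positivity, ?_⟩
  intro t ht ht1 n ez F1 F2 F3 h1 h3 h2 o ho K hKn x V _ _ _ h p g u v X hh hp hcen hu hv hX
  have hez : 0 ≤ ez := h2.1
  rcases hh.eq_or_lt with hz | hh0
  · rw [cosF_congr (F0' := fun _ => 0) (Cen.zero_of hcen (Or.inl hz.symm)), cosF_zero]
    positivity
  rcases hp.eq_or_lt with hz | hp0
  · rw [cosF_congr (F0' := fun _ => 0) (Cen.zero_of hcen (Or.inr hz.symm)), cosF_zero]
    positivity
  set s : ℝ := (p / h) ^ 2 with hs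
  have hph : 0 < p / h := div_pos hp0 hh0
  have hs0 : 0 < s := by positivity
  have hss : √s = p / h := Real.sqrt_sq hph.le
  have hN := Cen.norm hcen hh0 he0
  have hK2 : L * t ^ (2 - c) * (h * p) / (h ^ 2 * e0) = L / e0 * t ^ (2 - c) * √s := by
    rw [hss]
    field_simp
  rw [hK2, ← hss] at hN
  have htc : 0 < t ^ (2 - c) := Real.rpow_pos_of_pos ht _
  have hN' := Cen.mono_K hN (K' := (L / e0 + L) * t ^ (2 - c) * √s) (by
    have : 0 ≤ L * t ^ (2 - c) * √s := by positivity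
    nlinarith)
  have hXn : (avg (iv K x.1) fun z => if z ∈ X then (1 : ℝ) else 0) * (t ^ 2 * √s) ≤
      (L / e0 + L) * (t ^ a * s) := by
    rw [hss, hs]
    have e1 : (avg (iv K x.1) fun z => if z ∈ X then (1 : ℝ) else 0) * (t ^ 2 * (p / h)) =
        ((avg (iv K x.1) fun z => if z ∈ X then (1 : ℝ) else 0) * (t ^ 2 * (h * p))) / h ^ 2 := by
      field_simp
    have e2 : L * (t ^ a * (p / h) ^ 2) = (L * (t ^ a * p ^ 2)) / h ^ 2 := by
      field_simp
    have e3 : L * (t ^ a * (p / h) ^ 2) ≤ (L / e0 + L) * (t ^ a * (p / h) ^ 2) := by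
      have h4 : 0 ≤ L / e0 := by positivity
      have h5 : 0 ≤ t ^ a * (p / h) ^ 2 := mul_nonneg (Real.rpow_nonneg ht.le _) (sq_nonneg _)
      nlinarith
    refine le_trans ?_ e3
    rw [e1, e2]
    exact div_le_div_of_nonneg_right hX (by positivity)
  have key := H t ht ht1 n ez F1 F2 F3 h1 h3 h2 o ho K hKn x V s _ _ _ X hs0 hN'
    (fun z hz y => by rw [hu z hz y, smul_zero]) (fun z hz y => by rw [hv z hz y, smul_zero]) hXn
  have hse : 0 < √e0 := Real.sqrt_pos.2 he0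
  have e1 : cenf 0 1 2 g u v = fun y => (h ^ 3 * e0) *
      comp (fun q => (fun x y => h⁻¹ * g x y) q.1 q.2) (fun z x => (h * √e0)⁻¹ • u z x)
        (fun z y => (h * √e0)⁻¹ • v z y) y := by
    funext y
    show g y.2.1 y.2.2 * inner ℝ (u y.1 y.2.1) (v y.1 y.2.2) = h ^ 3 * e0 *
      ((h⁻¹ * g y.2.1 y.2.2) * inner ℝ ((h * √e0)⁻¹ • u y.1 y.2.1) ((h * √e0)⁻¹ • v y.1 y.2.2))
    rw [real_inner_smul_left, real_inner_smul_right]
    have h5 : h ^ 3 * e0 * (h⁻¹ * ((h * √e0)⁻¹ * (h * √e0)⁻¹)) = 1 := by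
      have h6 : (h * √e0)⁻¹ * (h * √e0)⁻¹ = (h ^ 2 * e0)⁻¹ := by
        rw [← mul_inv, ← sq, mul_pow, Real.sq_sqrt he0.le]
      rw [h6]
      field_simp
    calc g y.2.1 y.2.2 * inner ℝ (u y.1 y.2.1) (v y.1 y.2.2)
        = 1 * (g y.2.1 y.2.2 * inner ℝ (u y.1 y.2.1) (v y.1 y.2.2)) := (one_mul _).symm
      _ = _ := by rw [← h5]; ring
  rw [e1, cosF_smul, abs_of_pos (by positivity)]
  refine (mul_le_mul_of_nonneg_left key (by positivity)).trans (le_of_eq ?_)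
  have h7 : s ^ (5 / 4 : ℝ) = (p / h) ^ 2 * √(p / h) := by
    rw [hs, ← Real.rpow_natCast (p / h) 2, ← Real.rpow_mul hph.le, Real.sqrt_eq_rpow,
      ← Real.rpow_add hph]
    norm_num
  have h8 : h ^ 3 * ((p / h) ^ 2 * √(p / h)) = √h * (p ^ 2 * √p) := by
    rw [Real.sqrt_div hp]
    have h9 : √h * √h = h := Real.mul_self_sqrt hh
    have h10 : 0 < √h := Real.sqrt_pos.2 hh0
    field_simp
    nlinarith [h9]
  rw [h7]
  calc h ^ 3 * e0 * (C * (t ^ (1 + gam) * ((p / h) ^ 2 * √(p / h)) * √ez * 8 ^ K))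
      = e0 * C * (t ^ (1 + gam) * (h ^ 3 * ((p / h) ^ 2 * √(p / h))) * √ez * 8 ^ K) := by ring
    _ = _ := by rw [h8]

/-! ### The costs of the level -/

/-- **The costs of the level.** -/
theorem cenStM_of_ce1 (H : CE1StM) : CenStM := by
  obtain ⟨a, gam, c1, ha, ha', hg, hc1, H⟩ := H
  refine ⟨a, gam, min c1 1, ha, ha', hg, lt_min hc1 one_pos, fun c hc0 hcc Kc L e0 hKc hL he0 => ?_⟩
  set T0 : ℝ := H437.TT with hT0
  have hT : CmpSt 7 T0 := H437.cmpT
  have hT1 : 1 ≤ T0 := by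
    rw [hT0]
    unfold H437.TT
    norm_num
  set e1 : ℝ := 1 + Kc + Kc ^ 2 with he1
  have he1' : 1 ≤ e1 := by rw [he1]; nlinarith [sq_nonneg Kc]
  have hTe : 1 ≤ T0 ^ 2 * e1 := one_le_mul_of_one_le_of_one_le (one_le_pow₀ hT1) he1'
  obtain ⟨C, hC, H⟩ := H c hc0 (hcc.trans (min_le_left _ _)) (T0 * Kc) (T0 ^ 2 * e1) 52 (2 * L) e0
    (mul_pos (by linarith) hKc) hTe (by norm_num) (by positivity) he0
  refine ⟨8 * (1521 ^ 2 * (8 * (C * √(T0 ^ 2 * e1)))), by positivity, ?_⟩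
  intro e heK hec σ r j k x q l m n hd V _ _ _ h p g u v X hh hp hcen hu hv hX
  set t : ℝ := e2 (-1) j with ht
  have ht0 : 0 < t := e2_pos _ _
  have ht1 : t ≤ 1 := e2_neg_one_le j
  set Y : ℝ := C * (t ^ (1 + gam) * (√h * (p ^ 2 * √p)) * √(T0 ^ 2 * e1) * 8 ^ k) with hY
  have hY0 : 0 ≤ Y := by positivity
  have htc : (e.mp j).t = Kc * t ^ (1 - c) := by
    show e.K * e2 (-(1 - e.c)) j = _
    rw [heK, hec, ht, e2_neg_one_rpow]
  have htc1 : t ^ (1 - c) ≤ 1 :=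
    Real.rpow_le_one ht0.le ht1 (by have := hcc.trans (min_le_right c1 1); linarith)
  have htc0 : 0 < t ^ (1 - c) := Real.rpow_pos_of_pos ht0 _
  have hE : (e.mp j).E ≤ e1 := by
    show e.K ≤ e1
    rw [heK, he1]
    nlinarith [sq_nonneg Kc]
  have hte : (e.mp j).t ^ 2 ≤ e1 := by
    rw [htc, mul_pow, he1]
    have h1 : (t ^ (1 - c)) ^ 2 ≤ 1 := pow_le_one₀ htc0.le htc1
    nlinarith [sq_nonneg Kc, mul_le_mul_of_nonneg_left h1 (sq_nonneg Kc)]
  have hKp : L * e2 (-(2 - c)) j * (h * p) = L * t ^ (2 - c) * (h * p) := by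
    rw [ht, e2_neg_one_rpow]
  have hKp0 : 0 ≤ L * t ^ (2 - c) * (h * p) := by positivity
  have htw : e2 (-2) j = t ^ 2 := by
    rw [ht, ← Real.rpow_natCast, Nat.cast_ofNat, e2_neg_one_rpow]
  have hta : e2 (-a) j = t ^ a := by rw [ht, e2_neg_one_rpow]
  rw [hKp] at hcen
  rw [htw, hta] at hX
  have hw0 : 0 ≤ t ^ 2 * (h * p) := by positivity
  -- the box cost
  have hB : CeB k (T0 * (e.mp j).t) (T0 ^ 2 * e1) Y
      (CenC k (PCen h p)
        (fun I J (w : ℤ → ℤ → V) => QCen h p e0 (L * t ^ (2 - c) * (h * p)) I J w ∧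
          SupB (t ^ 2 * (h * p)) (L * (t ^ a * p ^ 2)) I J w)
        (fun I J (w : ℤ → ℤ → V) => RCen h p e0 (L * t ^ (2 - c) * (h * p)) I J w ∧
          SupB (t ^ 2 * (h * p)) (L * (t ^ a * p ^ 2)) I J w) 0 1 2) := by
    rintro n' hn' F1 F2 F3 h1 h2 h3 o ho y f ⟨g', u', v', rfl, ha1, ⟨hb, X1, hX1, hb'⟩, hc', X2, hX2,
      hc2⟩
    have e1' : T0 * (e.mp j).t = T0 * Kc * t ^ (1 - c) := by rw [htc]; ring
    rw [e1'] at h1 h3
    set u1 : ℤ → ℤ → V := fun z w => if z ∈ X1 ∪ X2 then u' z w else 0 with hu1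
    set v1 : ℤ → ℤ → V := fun z w => if z ∈ X1 ∪ X2 then v' z w else 0 with hv1
    have eu : ∀ z ∈ iv k (co 0 y), ∀ w ∈ iv k (co 1 y), u1 z w = u' z w := by
      intro z hz w hw
      rw [hu1]
      by_cases hz1 : z ∈ X1 ∪ X2
      · simp only [if_pos hz1]
      · simp only [if_neg hz1]
        exact (hb' z hz (fun hc => hz1 (mem_union_left _ hc)) w hw).symm
    have ev : ∀ z ∈ iv k (co 0 y), ∀ w ∈ iv k (co 2 y), v1 z w = v' z w := by
      intro z hz w hw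
      rw [hv1]
      by_cases hz1 : z ∈ X1 ∪ X2
      · simp only [if_pos hz1]
      · simp only [if_neg hz1]
        exact (hc2 z hz (fun hc => hz1 (mem_union_right _ hc)) w hw).symm
    have hb1 : QCen h p e0 (L * t ^ (2 - c) * (h * p)) (iv k (co 0 y)) (iv k (co 1 y)) u1 :=
      clo_qcen hh hp he0.le hKp0 _ _ _ _ _ _ rfl rfl (sub_self eu) hb
    have hc1' : RCen h p e0 (L * t ^ (2 - c) * (h * p)) (iv k (co 0 y)) (iv k (co 2 y)) v1 :=
      clo_rcen hh hp he0.le hKp0 _ _ _ _ _ _ rfl rfl (sub_self ev) hc'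
    have hcen1 := cen_iff.2 ⟨ha1, hb1, hc1'⟩
    have hcong : ∀ z ∈ cube3 k y, cenf 0 1 2 g' u' v' z = cenf 0 1 2 g' u1 v1 z := by
      intro z hz
      rw [Vale.Agent.P141.PL.H315.mem_cube3] at hz
      show g' z.2.1 z.2.2 * inner ℝ (u' z.1 z.2.1) (v' z.1 z.2.2) =
        g' z.2.1 z.2.2 * inner ℝ (u1 z.1 z.2.1) (v1 z.1 z.2.2)
      rw [eu z.1 hz.1 z.2.1 hz.2.1, ev z.1 hz.1 z.2.2 hz.2.2]
    rw [cosF_congr hcong]
    have hXu := avg_union _ X1 X2 hw0 hX1 hX2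
    refine H t ht0 ht1 n' _ F1 F2 F3 h1 h3 h2 o ho k hn' y V h p g' u1 v1 (X1 ∪ X2) hh hp
      (Cen.mono_K hcen1 (by nlinarith)) (fun z hz w => if_neg hz) (fun z hz w => if_neg hz) ?_
    refine hXu.trans (le_of_eq ?_)
    ring
  obtain ⟨h1, h2, h3⟩ := cen_iff.1 hcen
  have key : ∀ a : Fin 4 × Bool, cost (((e.mp j).cw σ r).κ a) (((e.mp j).cw σ r).o a) r
      (pfw (fc r) k q (cenf l m n g u v)) k ((gr 7 σ).cube k x) ≤ 1521 ^ 2 * (8 * Y) := fun a =>
    cost_cen (clo_pcen hh hp) ((clo_qcen hh hp he0.le hKp0).and (clo_supB hw0))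
      ((clo_rcen hh hp he0.le hKp0).and (clo_supB hw0)) hT1 hT hE
      hte hY0 hB a.1 r (((e.mp j).cw σ r).ho a) hd ⟨g, u, v, rfl, h1,
        ⟨h2, X, hX, fun z _ hz y _ => hu z hz y⟩, h3, X, hX, fun z _ hz y _ => hv z hz y⟩ x
  have e2' : ((e.mp j).cw σ r).cst (pfw (fc r) k q (cenf l m n g u v)) k
      ((gr 7 σ).cube k x) ≤ ∑ _a : Fin 4 × Bool, 1521 ^ 2 * (8 * Y) := by
    refine sum_le_sum fun a _ => ?_
    have : ((e.mp j).cw σ r).nrm a = 1 := rfl
    rw [this, div_one]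
    exact key a
  refine e2'.trans (le_of_eq ?_)
  rw [sum_const, card_univ, Fintype.card_prod, Fintype.card_fin, Fintype.card_bool, nsmul_eq_mul,
    hY, ht, e2_neg_one_rpow]
  push_cast
  ring

/-- **The costs of the level from the normalised statement.** -/
theorem cenStM_of_m (H : CE1M) : CenStM := cenStM_of_ce1 (ce1StM_of_m H)

end

end Vale.Agent.P141.H490.CenM
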