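import Vale.Agent.P141.H927.Spec3
import Vale.Agent.P141.H490.CenM

/-!
# P141, CE with a low vector edge: `H305.CE1L → CE1StL → CenStL2`
-/

namespace Vale.Agent.P141.H490.CenLo

open Finset Vale.Agent.P141.H48
open Vale.Agent.P141.PL (Pt fc loc cx)
open Vale.Agent.P141.PL.H315 (iv cube3 avg)
open Vale.Agent.P141.PL.H95 (gr)
open Vale.Agent.P141.H347.Gs (Ex e2 e2_pos kap cwG)
open Vale.Agent.P141.H736 (cost)
open Vale.Agent.P141.H136 (comp)
open Vale.Agent.P141.H572 (cosF)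
open Vale.Agent.P141.H971 (Cen)
open Vale.Agent.P141.H639
open Vale.Agent.P141.H650 (cosF_congr cosF_smul cosF_zero Cen.norm Cen.mono_K Cen.zero_of)
open Vale.Agent.P141.H927 (CE1StL CenStL2)

noncomputable section

open scoped Classical

/-! ### From normalised data to all data -/

/-- **From normalised data to all data.** -/
theorem ce1StL_of_top (H : H305.CE1L) : CE1StL := by
  intro b hb0 hb1
  obtain ⟨gam, c1, hg, hc1, H⟩ := H b hb0 hb1
  refine ⟨gam, c1, hg, hc1, fun c hc hcc Kt e cP L e0 hK he hcP hL he0 => ?_⟩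
  have hLe : 0 ≤ L / e0 := by positivity
  obtain ⟨C, hC, H⟩ := H c hc hcc Kt e cP (L / e0 + L + 1) hK he hcP (by linarith)
  refine ⟨e0 * C, by positivity, ?_⟩
  intro t ht ht1 n ez F1 F2 F3 h1 h3 h2 o ho K hKn x V _ _ _ h p g u v hh hp hcen hlow
  have hez : 0 ≤ ez := h2.1
  rcases hh.eq_or_lt with hz | hh0
  · rw [cosF_congr (F0' := fun _ => 0) (Cen.zero_of hcen (Or.inl hz.symm)), cosF_zero]
    positivity
  rcases hp.eq_or_lt with hz | hp0
  · rw [cosF_congr (F0' := fun _ => 0) (Cen.zero_of hcen (Or.inr hz.symm)), cosF_zero]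
    positivity
  set s : ℝ := (p / h) ^ 2 with hs
  have hph : 0 < p / h := div_pos hp0 hh0
  have hs0 : 0 < s := by positivity
  have hss : √s = p / h := Real.sqrt_sq hph.le
  have hN := Cen.norm hcen hh0 he0
  have hK2 : L * t ^ (2 - c) * (h * p) / (h ^ 2 * e0) = L / e0 * t ^ (2 - c) * √s := by
    rw [hss]
    field_simp
  rw [hK2, ← hss] at hN
  have htc : 0 < t ^ (2 - c) := Real.rpow_pos_of_pos ht _
  have htb : 0 < t ^ b := Real.rpow_pos_of_pos ht _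
  have hN' := Cen.mono_K hN (K' := (L / e0 + L + 1) * t ^ (2 - c) * √s) (by
    have : 0 ≤ t ^ (2 - c) * √s := by positivity
    nlinarith)
  have hse : 0 < √e0 := Real.sqrt_pos.2 he0
  have hn : ∀ w : V, ‖w‖ ^ 2 ≤ L * (t ^ b * (h ^ 2 * e0)) →
      ‖(h * √e0)⁻¹ • w‖ ^ 2 ≤ (L / e0 + L + 1) * t ^ b := by
    intro w hw
    have hq2 : ((h * √e0)⁻¹) ^ 2 = (h ^ 2 * e0)⁻¹ := by
      rw [inv_pow, mul_pow, Real.sq_sqrt he0.le]
    rw [norm_smul, mul_pow, Real.norm_eq_abs, sq_abs, hq2]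
    have hpos : 0 < h ^ 2 * e0 := by positivity
    have h4 : (h ^ 2 * e0)⁻¹ * ‖w‖ ^ 2 ≤ L * t ^ b := by
      rw [inv_mul_le_iff₀ hpos]
      refine hw.trans (le_of_eq ?_)
      ring
    nlinarith
  have key := H t ht ht1 n ez F1 F2 F3 h1 h3 h2 o ho K hKn x V s _ _ _ hs0 hN'
    (hlow.imp (fun h4 z hz y hy => hn _ (h4 z hz y hy)) fun h4 z hz y hy => hn _ (h4 z hz y hy))
  have e1 : cenf 0 1 2 g u v = fun y => (h ^ 3 * e0) *
      comp (fun q => (fun x y => h⁻¹ * g x y) q.1 q.2) (fun z x => (h * √e0)⁻¹ • u z x)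
        (fun z y => (h * √e0)⁻¹ • v z y) y := by
    funext y
    show g y.2.1 y.2.2 * inner ℝ (u y.1 y.2.1) (v y.1 y.2.2) = h ^ 3 * e0 *
      ((h⁻¹ * g y.2.1 y.2.2) * inner ℝ ((h * √e0)⁻¹ • u y.1 y.2.1) ((h * √e0)⁻¹ • v y.1 y.2.2))
    rw [real_inner_smul_left, real_inner_smul_right]
    have h5 : h ^ 3 * e0 * (h⁻¹ * ((h * √e0)⁻¹ * (h * √e0)⁻¹)) = 1 := by
      have h6 : (h * √e0)⁻¹ * (h * √e0)⁻¹ = (h ^ 2 * e0)⁻¹ := by
        rw [← mul_inv, ← sq, mul_pow, Real.sq_sqrt he0.le]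
      rw [h6]
      field_simp
    calc g y.2.1 y.2.2 * inner ℝ (u y.1 y.2.1) (v y.1 y.2.2)
        = 1 * (g y.2.1 y.2.2 * inner ℝ (u y.1 y.2.1) (v y.1 y.2.2)) := (one_mul _).symm
      _ = _ := by rw [← h5]; ring
  rw [e1, cosF_smul, abs_of_pos (by positivity)]
  refine (mul_le_mul_of_nonneg_left key (by positivity)).trans (le_of_eq ?_)
  have h7 : s ^ (5 / 4 : ℝ) = (p / h) ^ 2 * √(p / h) := by
    rw [hs, ← Real.rpow_natCast (p / h) 2, ← Real.rpow_mul hph.le, Real.sqrt_eq_rpow,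
      ← Real.rpow_add hph]
    norm_num
  have h8 : h ^ 3 * ((p / h) ^ 2 * √(p / h)) = √h * (p ^ 2 * √p) := by
    rw [Real.sqrt_div hp]
    have h9 : √h * √h = h := Real.mul_self_sqrt hh
    have h10 : 0 < √h := Real.sqrt_pos.2 hh0
    field_simp
    nlinarith [h9]
  rw [h7]
  calc h ^ 3 * e0 * (C * (t ^ (1 + gam) * ((p / h) ^ 2 * √(p / h)) * √ez * 8 ^ K))
      = e0 * C * (t ^ (1 + gam) * (h ^ 3 * ((p / h) ^ 2 * √(p / h))) * √ez * 8 ^ K) := by ring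
    _ = _ := by rw [h8]

/-! ### The costs of the level -/

/-- a low height, asked only if `P` -/
def Low {V : Type*} [NormedAddCommGroup V] (P : Prop) (B : ℝ) (I J : Finset ℤ)
    (u : ℤ → ℤ → V) : Prop :=
  P → ∀ z ∈ I, ∀ y ∈ J, ‖u z y‖ ^ 2 ≤ B

theorem clo_low {V : Type*} [NormedAddCommGroup V] (P : Prop) {B : ℝ} (hB : 0 ≤ B) :
    Clo (V := V) (Low P B) := by
  intro I J f I' J' f' hI hJ hs hp hP
  exact clo_pt (θ := fun w : V => ‖w‖ ^ 2) (by simpa using hB) _ _ _ _ _ _ hI hJ hs (hp hP)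

/-- **The costs of the level.** -/
theorem cenStL2_of_ce1 (H : CE1StL) : CenStL2 := by
  intro b hb0 hb1
  obtain ⟨gam, c1, hg, hc1, H⟩ := H b hb0 hb1
  refine ⟨gam, min c1 1, hg, lt_min hc1 one_pos, fun c hc0 hcc Kc L e0 hKc hL he0 => ?_⟩
  set T0 : ℝ := H437.TT with hT0
  have hT : CmpSt 7 T0 := H437.cmpT
  have hT1 : 1 ≤ T0 := by
    rw [hT0]
    unfold H437.TT
    norm_num
  set e1 : ℝ := 1 + Kc + Kc ^ 2 with he1
  have he1' : 1 ≤ e1 := by rw [he1]; nlinarith [sq_nonneg Kc]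
  have hTe : 1 ≤ T0 ^ 2 * e1 := one_le_mul_of_one_le_of_one_le (one_le_pow₀ hT1) he1'
  obtain ⟨C, hC, H⟩ := H c hc0 (hcc.trans (min_le_left _ _)) (T0 * Kc) (T0 ^ 2 * e1) 52 L e0
    (mul_pos (by linarith) hKc) hTe (by norm_num) hL he0
  refine ⟨8 * (1521 ^ 2 * (8 * (C * √(T0 ^ 2 * e1)))), by positivity, ?_⟩
  intro e heK hec σ r j k x q l m n hd V _ _ _ h p g u v hh hp hcen hlow
  set t : ℝ := e2 (-1) j with ht
  have ht0 : 0 < t := e2_pos _ _
  have ht1 : t ≤ 1 := e2_neg_one_le j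
  set Y : ℝ := C * (t ^ (1 + gam) * (√h * (p ^ 2 * √p)) * √(T0 ^ 2 * e1) * 8 ^ k) with hY
  have hY0 : 0 ≤ Y := by positivity
  have htc : (e.mp j).t = Kc * t ^ (1 - c) := by
    show e.K * e2 (-(1 - e.c)) j = _
    rw [heK, hec, ht, e2_neg_one_rpow]
  have htc1 : t ^ (1 - c) ≤ 1 :=
    Real.rpow_le_one ht0.le ht1 (by have := hcc.trans (min_le_right c1 1); linarith)
  have htc0 : 0 < t ^ (1 - c) := Real.rpow_pos_of_pos ht0 _
  have hE : (e.mp j).E ≤ e1 := by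
    show e.K ≤ e1
    rw [heK, he1]
    nlinarith [sq_nonneg Kc]
  have hte : (e.mp j).t ^ 2 ≤ e1 := by
    rw [htc, mul_pow, he1]
    have h1 : (t ^ (1 - c)) ^ 2 ≤ 1 := pow_le_one₀ htc0.le htc1
    nlinarith [sq_nonneg Kc, mul_le_mul_of_nonneg_left h1 (sq_nonneg Kc)]
  have hKp : L * e2 (-(2 - c)) j * (h * p) = L * t ^ (2 - c) * (h * p) := by
    rw [ht, e2_neg_one_rpow]
  have hKp0 : 0 ≤ L * t ^ (2 - c) * (h * p) := by positivity
  have htb : e2 (-b) j = t ^ b := by rw [ht, e2_neg_one_rpow]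
  rw [hKp] at hcen
  rw [htb] at hlow
  set B : ℝ := L * (t ^ b * (h ^ 2 * e0)) with hBdef
  have hB0 : 0 ≤ B := by positivity
  set P : Prop := ∀ z ∈ iv k (co l q), ∀ y ∈ iv k (co m q), ‖u z y‖ ^ 2 ≤ B with hP
  -- the box cost
  have hB : CeB k (T0 * (e.mp j).t) (T0 ^ 2 * e1) Y
      (CenC k (PCen h p)
        (fun I J (w : ℤ → ℤ → V) => QCen h p e0 (L * t ^ (2 - c) * (h * p)) I J w ∧ Low P B I J w)
        (fun I J (w : ℤ → ℤ → V) => RCen h p e0 (L * t ^ (2 - c) * (h * p)) I J w ∧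
          Low (¬ P) B I J w) 0 1 2) := by
    rintro n' hn' F1 F2 F3 h1 h2 h3 o ho y f ⟨g', u', v', rfl, ha1, ⟨hb, hb'⟩, hc', hc2⟩
    have e1' : T0 * (e.mp j).t = T0 * Kc * t ^ (1 - c) := by rw [htc]; ring
    rw [e1'] at h1 h3
    refine H t ht0 ht1 n' _ F1 F2 F3 h1 h3 h2 o ho k hn' y V h p g' u' v' hh hp
      (cen_iff.2 ⟨ha1, hb, hc'⟩) ?_
    by_cases hPP : P
    · exact Or.inl (hb' hPP)
    · exact Or.inr (hc2 hPP)
  obtain ⟨h1, h2, h3⟩ := cen_iff.1 hcen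
  have key : ∀ a : Fin 4 × Bool, cost (((e.mp j).cw σ r).κ a) (((e.mp j).cw σ r).o a) r
      (pfw (fc r) k q (cenf l m n g u v)) k ((gr 7 σ).cube k x) ≤ 1521 ^ 2 * (8 * Y) := fun a =>
    cost_cen (clo_pcen hh hp) ((clo_qcen hh hp he0.le hKp0).and (clo_low P hB0))
      ((clo_rcen hh hp he0.le hKp0).and (clo_low (¬ P) hB0)) hT1 hT hE
      hte hY0 hB a.1 r (((e.mp j).cw σ r).ho a) hd ⟨g, u, v, rfl, h1,
        ⟨h2, fun hPP => hPP⟩, h3, fun hPP => hlow.resolve_left hPP⟩ x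
  have e2' : ((e.mp j).cw σ r).cst (pfw (fc r) k q (cenf l m n g u v)) k
      ((gr 7 σ).cube k x) ≤ ∑ _a : Fin 4 × Bool, 1521 ^ 2 * (8 * Y) := by
    refine sum_le_sum fun a _ => ?_
    have : ((e.mp j).cw σ r).nrm a = 1 := rfl
    rw [this, div_one]
    exact key a
  refine e2'.trans (le_of_eq ?_)
  rw [sum_const, card_univ, Fintype.card_prod, Fintype.card_fin, Fintype.card_bool, nsmul_eq_mul,
    hY, ht, e2_neg_one_rpow]
  push_cast
  ring

/-- **The costs of the level from the frozen top statement.** -/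
theorem cenStL2_of_top (H : H305.CE1L) : CenStL2 := cenStL2_of_ce1 (ce1StL_of_top H)

end

end Vale.Agent.P141.H490.CenLo
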