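import Vale.Agent.P141.H347.Boot2
import Vale.Agent.P141.PL.H620.Fin2

/-!
# P141: the final statement from root estimates without any dependence on the number of scales

* `hypU0_of_rootQ2`: `RootQ 2 n P` for all `n` gives the node bounds, uniform in the exponents
  `d j ≤ D < 1 / 2`, without logarithms;
* `FinalStmt`: the limit defining `T` exists; at every Hölder tuple with `2 < p_i ≤ ∞`, `1 ≤ r < 2`
  all truncations of `T` are bounded with one constant, and `T` is bounded; in particular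
  `L⁴ × L⁴ × L⁴ → L^{4/3}`;
* `final_of_rootQ2`, `final_of_root2`, `final_of_levelSys2`.
-/

namespace Vale.Agent.P141.H490

open MeasureTheory Set Filter Topology
open scoped ENNReal SchwartzMap
open Vale.Agent.P141 Vale.Agent.P141.PL.H620 Vale.Agent.P141.H337 Vale.Agent.P141.H347

/-- the node bounds with a constant uniform in the exponents, no logarithm -/
theorem hypU0_of_rootQ2 {P : ℝ} (hP : 0 ≤ P) (H : ∀ n, RootQ 2 n P) : HypU 0 := by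
  intro D hD
  obtain ⟨C, hC, h⟩ := node_of_rootQ (q := 2) (D := D) (by norm_num) (by linarith)
  refine ⟨C * P, by positivity, fun d hd hdD hd1 n => ?_⟩
  rw [pow_zero, mul_one]
  exact h d hd hdD hd1 n P hP (H n)

/-- **all truncations, one constant**, at every tuple with `2 < p_i ≤ ∞`, `1 ≤ r < 2` -/
theorem trunc_of_rootQ2 {P : ℝ} (hP : 0 ≤ P) (H : ∀ n, RootQ 2 n P) {p₁ p₂ p₃ r : ℝ≥0∞}
    (h : IsHolderTuple p₁ p₂ p₃ r) (h₁ : 2 < p₁) (h₂ : 2 < p₂) (h₃ : 2 < p₃) (hr : 1 ≤ r)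
    (hr2 : r < 2) : ∃ C : ℝ, ∀ f₁ f₂ f₃ : 𝓢(ℝ, ℂ), ∀ ε R : ℝ, 0 < ε → ε < R →
      eLpNorm (truncTHT f₁ f₂ f₃ ε R) r volume ≤
        ENNReal.ofReal C * eLpNorm f₁ p₁ volume * eLpNorm f₂ p₂ volume *
          eLpNorm f₃ p₃ volume := by
  obtain ⟨C, hC⟩ := trunc_closed (hypU0_of_rootQ2 hP H) h h₁ h₂ h₃ hr hr2
  refine ⟨C, fun f₁ f₂ f₃ ε R hε hR => ?_⟩
  have h1 := hC f₁ f₂ f₃ ε R hε hR
  rwa [pow_zero, mul_one] at h1

/-- **The final statement.** -/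
def FinalStmt : Prop :=
  (∀ (f₁ f₂ f₃ : 𝓢(ℝ, ℂ)) (x : ℝ),
    Tendsto (fun q : ℝ × ℝ => truncTHT f₁ f₂ f₃ q.1 q.2 x) (𝓝[>] (0 : ℝ) ×ˢ atTop)
      (𝓝 (THT f₁ f₂ f₃ x))) ∧
  (∀ p₁ p₂ p₃ r : ℝ≥0∞, IsHolderTuple p₁ p₂ p₃ r → 2 < p₁ → 2 < p₂ → 2 < p₃ → 1 ≤ r → r < 2 →
    BoundedAt p₁ p₂ p₃ r) ∧
  (∀ p₁ p₂ p₃ r : ℝ≥0∞, IsHolderTuple p₁ p₂ p₃ r → 2 < p₁ → 2 < p₂ → 2 < p₃ → 1 ≤ r → r < 2 →
    ∃ C : ℝ, ∀ f₁ f₂ f₃ : 𝓢(ℝ, ℂ), ∀ ε R : ℝ, 0 < ε → ε < R →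
      eLpNorm (truncTHT f₁ f₂ f₃ ε R) r volume ≤
        ENNReal.ofReal C * eLpNorm f₁ p₁ volume * eLpNorm f₂ p₂ volume *
          eLpNorm f₃ p₃ volume) ∧
  BoundedAt 4 4 4 (4 / 3)

theorem final_of_rootQ2 {P : ℝ} (hP : 0 ≤ P) (H : ∀ n, RootQ 2 n P) : FinalStmt := by
  have key : ∀ p₁ p₂ p₃ r : ℝ≥0∞, IsHolderTuple p₁ p₂ p₃ r → 2 < p₁ → 2 < p₂ → 2 < p₃ →
      1 ≤ r → r < 2 → BoundedAt p₁ p₂ p₃ r := by
    intro p₁ p₂ p₃ r h h₁ h₂ h₃ hr hr2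
    obtain ⟨C, hC⟩ := trunc_of_rootQ2 hP H h h₁ h₂ h₃ hr hr2
    exact ⟨ENNReal.ofReal C, ENNReal.ofReal_lt_top, fun f₁ f₂ f₃ =>
      tht_le' f₁ f₂ f₃ fun ε R hε hR => hC f₁ f₂ f₃ ε R hε hR⟩
  refine ⟨exists_tendsto_truncTHT, key, fun p₁ p₂ p₃ r h h₁ h₂ h₃ hr hr2 =>
    trunc_of_rootQ2 hP H h h₁ h₂ h₃ hr hr2, ?_⟩
  exact bounded_444 (by norm_num) (by norm_num) hP H

theorem final_of_root2 {P : ℝ} (hP : 0 ≤ P) (H : ∀ n, Root2 n P) : FinalStmt :=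
  final_of_rootQ2 hP fun n => root2_iff.1 (H n)

/-- **The final statement from a level system without heights.** -/
theorem final_of_levelSys2 (h : LevelSys2) : FinalStmt := by
  obtain ⟨P, hP, H⟩ := root2_of_levelSys2 h
  exact final_of_root2 hP H

end Vale.Agent.P141.H490
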