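import Vale.Agent.P141.H490.Fin
import Vale.Agent.P141.H444.TopStep
import Vale.Agent.P141.H347.TopS

/-!
# P141: the final statement from (E) and the steps
-/

namespace Vale.Agent.P141.H490

open Vale.Agent.P141

/-- the final statement from `TopHyp2` -/
theorem final_of_topHyp2 (h : H444.TopHyp2) : FinalStmt :=
  final_of_levelSys2 (H444.levelSys2_of_topHyp2 h)

/-- the final statement from (E) and the steps, in the letters of `H444` -/
theorem final_of_stepHyp {C ε : ℝ} (hC : 0 ≤ C) (hE : H444.EnOut C ε) (h : H444.StepHyp) :
    FinalStmt :=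
  final_of_levelSys2 (H444.levelSys2_of_stepHyp hC hE h)

/-- the final statement from the assertion `EnL` and the steps, in the letters of `H444` -/
theorem final_of_enL {C : ℝ} (hC : 0 ≤ C) (hE : H444.EnL C) (h : H444.StepHyp) :
    FinalStmt :=
  final_of_topHyp2 (H444.topHyp2_of_stepHyp hC hE h)

/-- the final statement from the assertion `EnL` and the steps, in the letters of `H347` -/
theorem final_of_enL' {C : ℝ} (hC : 0 ≤ C) (hE : H444.EnL C) (h : H347.StepHyp) :
    FinalStmt :=
  final_of_topHyp2 (H347.topHyp2_of_step hC hE h)

end Vale.Agent.P141.H490
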