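import Vale.Agent.P141.H490.Fin3
import Vale.Agent.P141.H48.EnTop

/-!
# P141: the final statement from the steps only
-/

namespace Vale.Agent.P141.H490

open Vale.Agent.P141

/-- **The final statement from the steps**, (E) being proved -/
theorem final_of_steps (h : H444.StepHyp) : FinalStmt :=
  final_of_stepHyp (H48.Cen_nonneg (ε := 1 / 4) (by norm_num))
    (H48.enOut (ε := 1 / 4) (by norm_num) le_rfl) h

end Vale.Agent.P141.H490
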