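import Vale.Agent.P141.H886.NumOf
import Vale.Agent.P141.H548.OwnE
import Vale.Agent.P141.H736.FixBC
import Vale.Agent.P141.H652.NumR
import Vale.Agent.P141.H652.NumQ
import Vale.Agent.P141.H329.WinS
import Vale.Agent.P141.H302.BornU
import Vale.Agent.P141.H989.CrB3
import Vale.Agent.P141.H74.CutBC

/-!
# P141, line (A), increasing part: the leaf of the moving pair `(Bg, Cg)`

`fixBC` : the inequality at one `x0`, class data; `numBC`; `lBCg : H408.LBCg`.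
-/

namespace Vale.Agent.P141.H490.Lbc

open Finset Matrix
open Vale.Agent.P075 (Ix)
open Vale.Agent.P141.PL (Pt iv ix cx mem_iv)
open Vale.Agent.P141.PL.H315 (Tri)
open Vale.Agent.P141.H103 (GW)
open Vale.Agent.P141.H401 (cb)
open Vale.Agent.P141.H408
open Vale.Agent.P141.H419.PairB (gnV)
open Vale.Agent.P141.H419.WFamR
open Vale.Agent.P141.H457 (SD TD PG rs Fv)
open Vale.Agent.P141.H548
open Vale.Agent.P141.H302 (bN sumU_b1 sumU_b0 Pr pr_not pr_ch nmB_bN Wn_bN)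
open Vale.Agent.P141.H652 (PbS PbS_off bS_capk bS_capk1 bS_capN bS_hB1 bS_hB2 pay_hB3 pay_hB4
  dB payS payS_nonneg dB_nonneg EBU Th eb ah)
open Vale.Agent.P141.H677 (rt cP cP_pl KT tr_T)
open Vale.Agent.P141.H736 (wE)
open Vale.Agent.P141.H808 (cS)
open Vale.Agent.P141.H874 (CP sk)
open Vale.Agent.P141.H886
open Vale.Agent.P141.H912 (wS wS_mono)
open Vale.Agent.P141.H989.CrB (fCRB mB sumU_mB)

noncomputable section

open scoped Classical

set_option linter.unusedVariables false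

/-- one lag -/
theorem atLag {σ : ℝ} {f : ℕ → NumF} (H : SumL σ f) (l : ℕ) : SumU σ (f l) := by
  refine PairU.map (M := 1) zero_le_one H ?_
  intro ι _ _ p n ez F1 F2 F3 o K x s r U g u v Q1 Q2 Q3 X ht hs hr hez hX h
  rw [one_mul]
  exact h l

/-- weighted charges -/
def w1 : NumF := fun ι _ _ p n ez F1 F2 F3 o K x s r U g u v Q1 Q2 Q3 x0 =>
  ∑ l ∈ range (K + 1), (3 / 4 : ℝ) ^ l *
      vN 0 l ι p n ez F1 F2 F3 o K x s r U g u v Q1 Q2 Q3 x0

/-- weighted births -/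
def w2 : NumF := fun ι _ _ p n ez F1 F2 F3 o K x s r U g u v Q1 Q2 Q3 x0 =>
  ∑ l ∈ range (K + 1), (3 / 4 : ℝ) ^ l *
      bN (l + 1) ι p n ez F1 F2 F3 o K x s r U g u v Q1 Q2 Q3 x0

/-- the number of the second slot -/
def fE : NumF := fun ι _ _ p n ez F1 F2 F3 o K x s r U g u v Q1 Q2 Q3 x0 =>
  w1 ι p n ez F1 F2 F3 o K x s r U g u v Q1 Q2 Q3 x0 +
    w2 ι p n ez F1 F2 F3 o K x s r U g u v Q1 Q2 Q3 x0 +
    oN 0 ι p n ez F1 F2 F3 o K x s r U g u v Q1 Q2 Q3 x0 +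
    vN 1 0 ι p n ez F1 F2 F3 o K x s r U g u v Q1 Q2 Q3 x0 +
    bN 0 ι p n ez F1 F2 F3 o K x s r U g u v Q1 Q2 Q3 x0 +
    fCRB mB ι p n ez F1 F2 F3 o K x s r U g u v Q1 Q2 Q3 x0

/-- the number of the first slot -/
def fB : NumF := fun ι _ _ p n ez F1 F2 F3 o K x s r U g u v Q1 Q2 Q3 x0 =>
  dB p s r U K x u F3 Q3 x0 +
    payS (beI p r) (p.lam s r) o K (cx K x) u (fun k => H652.bS p s r U K u F3 Q3 x0 k) x0

theorem sum_w1 : SumU 1 w1 := sumU_v (j := 0) (Nat.zero_le 1)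

theorem sum_w2 : SumU 1 w2 := sumU_b1

theorem sum_fE : SumU 1 fE := by
  have a1 := SumU.add sum_w1 sum_w2
  have a2 := SumU.add a1 (atLag sumL_o 0)
  have a3 := SumU.add a2 (atLag (sumL_v (j := 1) le_rfl) 0)
  have a4 := SumU.add a3 sumU_b0
  have a5 := SumU.add a4 sumU_mB
  exact a5

theorem sum_fB : SumU (-1) fB := EBU

section one

variable {ι : Type} [Fintype ι] [DecidableEq ι]

variable {p : H401.Num} {s r : ℝ} {n : ℕ} {ez : ℝ} {F1 F2 F3 : ℕ → Pt → ℝ} {o : ℤ} {K : ℕ}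
  {x : Pt} {U : Tri} {g : ℤ → ℤ → ℝ} {u v : ℤ → ℤ → ι → ℝ} {Q1 Q2 Q3 : ℕ → Pt → Prop} {x0 : ℤ}

theorem bN_nn (ht : 0 < p.t) (hs : 0 < s) (hr : 1 ≤ r) (q : ℕ) :
    0 ≤ bN q ι p n ez F1 F2 F3 o K x s r U g u v Q1 Q2 Q3 x0 := by
  unfold H302.bN
  refine sum_nonneg fun k _ => sum_nonneg fun x1 _ => sum_nonneg fun z _ => ?_
  split_ifs
  · exact H302.eT_nn ht hs hr _ _ _ _
  · exact le_rfl

theorem crb_nn (ht : 0 < p.t) (hs : 0 < s) (hr : 1 ≤ r) :
    0 ≤ fCRB mB ι p n ez F1 F2 F3 o K x s r U g u v Q1 Q2 Q3 x0 := by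
  unfold H989.CrB.fCRB
  refine sum_nonneg fun k _ => sum_nonneg fun x1 _ => sum_nonneg fun z _ => ?_
  split_ifs
  · exact H302.eT_nn ht hs hr _ _ _ _
  · exact le_rfl

theorem wv_nn (ht : 0 < p.t) (hs : 0 < s) (hr : 1 ≤ r) :
    0 ≤ w1 ι p n ez F1 F2 F3 o K x s r U g u v Q1 Q2 Q3 x0 :=
  sum_nonneg fun l _ => mul_nonneg (by positivity) (vN_nn ht hs hr 0 l)

theorem wb_nn (ht : 0 < p.t) (hs : 0 < s) (hr : 1 ≤ r) :
    0 ≤ w2 ι p n ez F1 F2 F3 o K x s r U g u v Q1 Q2 Q3 x0 :=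
  sum_nonneg fun l _ => mul_nonneg (by positivity) (bN_nn ht hs hr (l + 1))

theorem fE_nn (ht : 0 < p.t) (hs : 0 < s) (hr : 1 ≤ r) :
    0 ≤ fE ι p n ez F1 F2 F3 o K x s r U g u v Q1 Q2 Q3 x0 := by
  have h1 := wv_nn (n := n) (ez := ez) (F1 := F1) (F2 := F2) (F3 := F3) (g := g) (Q1 := Q1)
    (Q2 := Q2) (Q3 := Q3) (U := U) (v := v) (o := o) (K := K) (x := x) (u := u) (x0 := x0)
    ht hs hr
  have h2 := wb_nn (n := n) (ez := ez) (F1 := F1) (F2 := F2) (F3 := F3) (g := g) (Q1 := Q1)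
    (Q2 := Q2) (Q3 := Q3) (U := U) (v := v) (o := o) (K := K) (x := x) (u := u) (x0 := x0)
    ht hs hr
  have h3 := oN_nn (n := n) (ez := ez) (F1 := F1) (F2 := F2) (F3 := F3) (g := g) (Q1 := Q1)
    (Q2 := Q2) (Q3 := Q3) (U := U) (v := v) (o := o) (K := K) (x := x) (u := u) (x0 := x0)
    ht hs hr 0
  have h4 := vN_nn (n := n) (ez := ez) (F1 := F1) (F2 := F2) (F3 := F3) (g := g) (Q1 := Q1)
    (Q2 := Q2) (Q3 := Q3) (U := U) (v := v) (o := o) (K := K) (x := x) (u := u) (x0 := x0)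
    ht hs hr 1 0
  have h5 := bN_nn (n := n) (ez := ez) (F1 := F1) (F2 := F2) (F3 := F3) (g := g) (Q1 := Q1)
    (Q2 := Q2) (Q3 := Q3) (U := U) (v := v) (o := o) (K := K) (x := x) (u := u) (x0 := x0)
    ht hs hr 0
  have h6 := crb_nn (n := n) (ez := ez) (F1 := F1) (F2 := F2) (F3 := F3) (g := g) (Q1 := Q1)
    (Q2 := Q2) (Q3 := Q3) (U := U) (v := v) (o := o) (K := K) (x := x) (u := u) (x0 := x0)
    ht hs hr
  unfold fE
  linarith

end one

theorem nn_fE : NN fE := by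
  intro ι _ _ p n ez F1 F2 F3 o K x s r U g u v Q1 Q2 Q3 x0 ht hs hr hez
  exact fE_nn ht hs hr

theorem be_pos {p : H401.Num} {r : ℝ} (ht : 0 < p.t) (hr : 1 ≤ r) : 0 < beI p r :=
  Real.rpow_pos_of_pos (div_pos ht (by linarith)) _

theorem nn_fB : NN fB := by
  intro ι _ _ p n ez F1 F2 F3 o K x s r U g u v Q1 Q2 Q3 x0 ht hs hr hez
  have h5 := dB_nonneg (p := p) (s := s) (r := r) (U := U) (K := K) (u := u) (F3 := F3)
    (Q3 := Q3) (x := x) x0
  have h6 := payS_nonneg (o := o) (K := K) (M := cx K x) (u := u) (x0 := x0) (be_pos ht hr)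
    (H401.Num.lam_pos (p := p) ht hs hr) (fun k => H652.bS p s r U K u F3 Q3 x0 k)
  exact add_nonneg h5 h6

/-- **The inequality at one `x0`.** -/
theorem fixBC : FixBC (18 * 48576) 2 fE fB := by
  intro ι _ _ p n ez F1 F2 F3 o K x s r U g u v Q1 Q2 Q3 ha ha1 he0 he04 hk8 hk3 hc hd hd1 hKt he
    hcP hL ht ht1 h1 h3 h2 ho hKn hs hr hcls q1 q2 q3 hez f1 f2 t' ht' x0 hx0 z J hz1 hz2 hJ
  have hr0 : 0 < r := by linarith
  have hl : 0 < p.lam s r := H401.Num.lam_pos (p := p) ht hs hr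
  have hth : 0 < p.th s r := H401.Num.th_pos (p := p) ht hs hr
  have hbe : 0 < beI p r := be_pos ht hr
  have hy : 0 < tauI p s r := by
    unfold H408.tauI
    positivity
  have hgI : 0 < gI p s r := mul_pos (Real.rpow_pos_of_pos (div_pos ht hr0) _) hy
  have hz : 0 < z := hgI.trans_le hz1
  have hE0 := nn_fE ι p n ez F1 F2 F3 o K x s r U g u v Q1 Q2 Q3 x0 ht hs hr hez
  have hB0 := nn_fB ι p n ez F1 F2 F3 o K x s r U g u v Q1 Q2 Q3 x0 ht hs hr hez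
  set c : ℕ → ℤ → ℤ → ι → ℝ := H170.Win.cut K (cx K x).1 (cx K x).2.2 (cS p ez U K v F2 x0)
    with hcd
  have hAgr : Agr p ez K x U v F2 x0 c := by
    intro k hk x1 hx1 w hw
    rw [hcd, H170.Win.cut_in hx1 hw, min_eq_left hk]
  have hPc : ∀ k < K, ∀ w m, ¬ Pr (cS p ez U K v F2 x0) k w m → ∀ x1 ∈ iv k m,
      c (k + 1) x1 w = c k x1 w := H74.CutBC.cut_row pr_not
  have hC : 2 * cCI p s r ^ 2 ≤ 4 ^ J * z ^ 2 := by
    refine le_trans ?_ hJ
    nlinarith [sq_nonneg (cCI p s r)]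
  have cap : ∀ k a n' m, k ≤ a → a < K → (cCI p s r ^ 2 • (1 : Matrix (Ix k × ι) (Ix k × ι) ℝ)
      - SD (beI p r) (TL p s r o K x u x0) k (a + 1) n' m * CP (c k) k (a + 1) n' m *
        SD (beI p r) (TL p s r o K x u x0) k (a + 1) n' m).PosSemidef := by
    intro k a n' m hka haK
    exact H74.CapBC.cut_capX ht ht1 hd1 he0.le hs hr hez hKn hcls.toCls q2 x0 (k := k)
      (a := a + 1) (j := k) (by omega) (by omega) (by omega) n' m
  have cap1 : ∀ k a n' m, k ≤ a → a < K → (cCI p s r ^ 2 • (1 : Matrix (Ix k × ι) (Ix k × ι) ℝ)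
      - SD (beI p r) (TL p s r o K x u x0) k (a + 1) n' m * CP (c (k + 1)) k (a + 1) n' m *
        SD (beI p r) (TL p s r o K x u x0) k (a + 1) n' m).PosSemidef := by
    intro k a n' m hka haK
    exact H74.CapBC.cut_capX ht ht1 hd1 he0.le hs hr hez hKn hcls.toCls q2 x0 (k := k)
      (a := a + 1) (j := k + 1) (by omega) (by omega) (by omega) n' m
  -- the numbers of the second slot
  have n1 := wv_nn (n := n) (ez := ez) (F1 := F1) (F2 := F2) (F3 := F3) (g := g) (Q1 := Q1)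
    (Q2 := Q2) (Q3 := Q3) (U := U) (v := v) (o := o) (K := K) (x := x) (u := u) (x0 := x0)
    ht hs hr
  have n2 := wb_nn (n := n) (ez := ez) (F1 := F1) (F2 := F2) (F3 := F3) (g := g) (Q1 := Q1)
    (Q2 := Q2) (Q3 := Q3) (U := U) (v := v) (o := o) (K := K) (x := x) (u := u) (x0 := x0)
    ht hs hr
  have n3 := oN_nn (n := n) (ez := ez) (F1 := F1) (F2 := F2) (F3 := F3) (g := g) (Q1 := Q1)
    (Q2 := Q2) (Q3 := Q3) (U := U) (v := v) (o := o) (K := K) (x := x) (u := u) (x0 := x0)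
    ht hs hr 0
  have n4 := vN_nn (n := n) (ez := ez) (F1 := F1) (F2 := F2) (F3 := F3) (g := g) (Q1 := Q1)
    (Q2 := Q2) (Q3 := Q3) (U := U) (v := v) (o := o) (K := K) (x := x) (u := u) (x0 := x0)
    ht hs hr 1 0
  have n5 := bN_nn (n := n) (ez := ez) (F1 := F1) (F2 := F2) (F3 := F3) (g := g) (Q1 := Q1)
    (Q2 := Q2) (Q3 := Q3) (U := U) (v := v) (o := o) (K := K) (x := x) (u := u) (x0 := x0)
    ht hs hr 0
  have n6 := crb_nn (n := n) (ez := ez) (F1 := F1) (F2 := F2) (F3 := F3) (g := g) (Q1 := Q1)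
    (Q2 := Q2) (Q3 := Q3) (U := U) (v := v) (o := o) (K := K) (x := x) (u := u) (x0 := x0)
    ht hs hr
  have hP : ∀ k w m, Pr (cS p ez U K v F2 x0) k w m →
      H505.Sk1.Ch (cS p ez U K v F2 x0) k m (ix k w) := fun k w m h => pr_ch k w m h
  have b1 : wS K (fun q => nB p s r o K x u x0 (Pr (cS p ez U K v F2 x0)) c q) ≤
      w2 ι p n ez F1 F2 F3 o K x s r U g u v Q1 Q2 Q3 x0 := by
    unfold H912.wS w2
    refine sum_le_sum fun q _ => mul_le_mul_of_nonneg_left ?_ (by positivity)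
    have e1 : nB p s r o K x u x0 (Pr (cS p ez U K v F2 x0)) c q =
        nmB K (cx K x).2.2 (cx K x).1 (beI p r) (H302.tS p s r o K x u x0)
          (Pr (cS p ez U K v F2 x0)) (cS p ez U K v F2 x0) q :=
      congrFun (H74.CutBC.nmB_cut (be := beI p r) (T := H302.tS p s r o K x u x0)
        (Pr (cS p ez U K v F2 x0))) q
    beta_reduce
    rw [e1]
    exact nmB_bN ht hs hr hP q n F1 F3 g Q1 Q2 Q3
  have b2 : ∑ k ∈ Ico 0 K, Wn K (cx K x).2.2 (cx K x).1 (beI p r) (TL p s r o K x u x0)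
        (rs (Pr (cS p ez U K v F2 x0) k) k (c (k + 1))) k ≤
      bN 0 ι p n ez F1 F2 F3 o K x s r U g u v Q1 Q2 Q3 x0 := by
    refine le_trans (le_of_eq ?_) (Wn_bN ht hs hr hP n F1 F3 g Q1 Q2 Q3)
    refine sum_congr rfl fun k hk => ?_
    exact H74.CutBC.Wn_rs_cut (by have := (mem_Ico.1 hk).2; omega) _ _ _
  have hEC : EC p s r n ez F1 F2 F3 o K x U g u v Q1 Q2 Q3 x0 (Pr (cS p ez U K v F2 x0)) c ≤
      fE ι p n ez F1 F2 F3 o K x s r U g u v Q1 Q2 Q3 x0 := by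
    unfold H548.EC fE
    have e1 : wS K (fun q => vN 0 q ι p n ez F1 F2 F3 o K x s r U g u v Q1 Q2 Q3 x0) =
        w1 ι p n ez F1 F2 F3 o K x s r U g u v Q1 Q2 Q3 x0 := rfl
    rw [e1]
    linarith
  obtain ⟨o1, o2, o3⟩ := own3 (n := n) (ez := ez) (F1 := F1) (F2 := F2) (F3 := F3) (g := g)
    (Q1 := Q1) (Q2 := Q2) (Q3 := Q3) (U := U) (v := v) (o := o) (K := K) (x := x) (u := u)
    (x0 := x0) ht ht1 he0.le hs hr hAgr hPc (σ := z ^ 2) (by positivity) hC cap cap1 hEC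
  -- the window
  refine (H329.WinBC.pBC_cls ht hs hr ez U o K x u v F2 F3 Q3 hy hz x0).trans ?_
  rw [← H74.CutBC.GW_win_cut (N := K) (S := (cx K x).1) (R := (cx K x).2.2) (cx K x).2.1
    (cP o x0)]
  have key := H736.fix_BC (be := beI p r) (T := TL p s r o K x u x0) (e := eL p s r o K x u x0)
    (d := dL p s r o K x u x0) hbe (s := z ^ 2) (q := p.th s r ^ 2) (τ := 2) (by positivity)
    (by positivity) (by norm_num) le_rfl (wt_cls ht hs hr) (two_cls ht hs hr) (N := K)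
    (b := fun k => H652.bS p s r U K u F3 Q3 x0 k) (c := c) (Pb := PbS p s r U K u F3 Q3 x0)
    (Pc := Pr (cS p ez U K v F2 x0)) (PbS_off x0) hPc (bS_capk hth x0) (bS_capk1 hth x0)
    (bS_capN hth x0) (R₁ := (cx K x).2.1) (S₁ := (cx K x).1) (T₁ := (cx K x).2.2)
    (cc := cP o x0) (cP_pl ho x0) (a := 48576 * ((J : ℝ) + 1) ^ 3)
    (E := fE ι p n ez F1 F2 F3 o K x s r U g u v Q1 Q2 Q3 x0)
    (EB := fB ι p n ez F1 F2 F3 o K x s r U g u v Q1 Q2 Q3 x0) ?_ hE0 hB0 ?_ ?_ ?_ ?_ ?_ ?_ ?_ ?_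
    o1 o2 o3
  · refine key.trans ?_
    have hth2 : p.th s r ^ 2 ≤ tauI p s r ^ 2 := by
      unfold H408.tauI
      nlinarith [sq_nonneg (p.th s r)]
    have j1 : √(z ^ 2 * fE ι p n ez F1 F2 F3 o K x s r U g u v Q1 Q2 Q3 x0 *
        (p.th s r ^ 2 * fB ι p n ez F1 F2 F3 o K x s r U g u v Q1 Q2 Q3 x0)) ≤
        √(z ^ 2 * fE ι p n ez F1 F2 F3 o K x s r U g u v Q1 Q2 Q3 x0 *
        (tauI p s r ^ 2 * fB ι p n ez F1 F2 F3 o K x s r U g u v Q1 Q2 Q3 x0)) :=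
      Real.sqrt_le_sqrt (mul_le_mul_of_nonneg_left (mul_le_mul_of_nonneg_right hth2 hB0)
        (by positivity))
    have j2 := mul_le_mul_of_nonneg_right hth2 hE0
    have j3 : 18 * (48576 * ((J : ℝ) + 1) ^ 3) = 18 * 48576 * ((J : ℝ) + 1) ^ 3 := by ring
    rw [j3]
    exact mul_le_mul_of_nonneg_left (add_le_add j1 j2) (by positivity)
  · have : (1 : ℝ) ≤ ((J : ℝ) + 1) ^ 3 := by
      refine one_le_pow₀ ?_
      have : (0 : ℝ) ≤ J := Nat.cast_nonneg J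
      linarith
    linarith
  · have h5 := bS_hB1 (p := p) (s := s) (r := r) (U := U) (K := K) (u := u) (F3 := F3) (Q3 := Q3)
      x x0
    have h6 := payS_nonneg (o := o) (K := K) (M := cx K x) (u := u) (x0 := x0) hbe hl
      (fun k => H652.bS p s r U K u F3 Q3 x0 k)
    exact h5.trans (le_add_of_nonneg_right h6)
  · have h5 := bS_hB2 (p := p) (s := s) (r := r) (U := U) (K := K) (u := u) (F3 := F3) (Q3 := Q3)
      x x0
    have h6 := payS_nonneg (o := o) (K := K) (M := cx K x) (u := u) (x0 := x0) hbe hl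
      (fun k => H652.bS p s r U K u F3 Q3 x0 k)
    exact h5.trans (le_add_of_nonneg_right h6)
  · have h5 := pay_hB3 (o := o) (K := K) (M := cx K x) (u := u) (x0 := x0) hbe hl
      (fun k => H652.bS p s r U K u F3 Q3 x0 k)
    have h6 := dB_nonneg (p := p) (s := s) (r := r) (U := U) (K := K) (u := u) (F3 := F3)
      (Q3 := Q3) (x := x) x0
    exact h5.trans (le_add_of_nonneg_left h6)
  · have h5 := pay_hB4 (o := o) (K := K) (M := cx K x) (u := u) (x0 := x0) (l := p.lam s r) hbe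
      (fun k => H652.bS p s r U K u F3 Q3 x0 k)
    have h6 := dB_nonneg (p := p) (s := s) (r := r) (U := U) (K := K) (u := u) (F3 := F3)
      (Q3 := Q3) (x := x) x0
    exact h5.trans (le_add_of_nonneg_left h6)
  · refine (hC1_cls (n := n) (F1 := F1) (F3 := F3) (g := g) (Q1 := Q1) (Q2 := Q2) (Q3 := Q3)
      ht hs hr hAgr).trans ?_
    unfold fE
    linarith
  · refine (hC2_cls (n := n) (F1 := F1) (F3 := F3) (g := g) (Q1 := Q1) (Q2 := Q2) (Q3 := Q3)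
      ht hs hr hAgr).trans ?_
    unfold fE
    linarith
  · refine le_trans (le_of_eq ?_) (?_ : fCRB mB ι p n ez F1 F2 F3 o K x s r U g u v Q1 Q2 Q3 x0 ≤ _)
    · unfold H989.CrB.fCRB
      refine sum_congr rfl fun k hk => sum_congr rfl fun x1 h1 => sum_congr rfl fun w h2 => ?_
      have hk1 : k + 1 ≤ K := (mem_Ico.1 hk).2
      have e1 : wE (beI p r) (TL p s r o K x u x0) k (c (k + 1)) x1 w =
          wE (beI p r) (H989.CrB.TT p s r o K x u x0) k (cS p ez U K v F2 x0 (k + 1)) x1 w :=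
        H74.CutBC.wE_cut hk1 h1 h2
      rw [e1]
      rfl
    · unfold fE
      linarith
  · refine le_trans b2 ?_
    unfold fE
    linarith

theorem numBC : NumBC (18 * 48576) 2 := numBC_of sum_fE sum_fB nn_fE nn_fB fixBC

/-- **The leaf of the moving pair `(Bg, Cg)`.** -/
theorem lBCg : H408.LBCg := lbc_end (by norm_num) (by norm_num) numBC

end

end Vale.Agent.P141.H490.Lbc
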