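import Mathlib

/-!
# P141, line (A), gap part: the numbers of `H609.tzX_lab`

All quantities in natural units: `M` = number of points, `s` = mass, `u` = level unit
(`t s ^ (1 / 4)`), `x = t / r ≤ 1`.  The losses are `x ^ (-γ / 64)`, the gains `x ^ γ`, the crude
bounds `x ^ (-A)`.  `numTZ` : choice of `D Q σ σ₀ κC LA LB LC LC'` (and `ρ = 1`) with all side
conditions and the right side at most `C₁ (M s u) x ^ (γ / 64)`.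
-/

namespace Vale.Agent.P141.H490.NumTZ

open Real

/-- number of dyadic levels -/
theorem levels {cap lev R : ℝ} (hl : 0 < lev) (hR : 1 ≤ R) (h : cap ≤ R * lev) :
    ∃ n : ℕ, cap / 2 ^ (n - 1) < lev ∧ (n : ℝ) ≤ 2 * Real.log R + 3 := by
  have hlog : 0 ≤ Real.log R := Real.log_nonneg hR
  obtain ⟨n, hn1, hn2⟩ : ∃ n : ℕ, 2 * Real.log R < n ∧ (n : ℝ) ≤ 2 * Real.log R + 1 := by
    refine ⟨⌊2 * Real.log R⌋₊ + 1, ?_, ?_⟩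
    · push_cast
      exact Nat.lt_floor_add_one _
    · push_cast
      have := Nat.floor_le (a := 2 * Real.log R) (by positivity)
      linarith
  refine ⟨n + 1, ?_, by push_cast; linarith⟩
  rw [Nat.add_sub_cancel]
  have h2 : R < 2 ^ n ∨ R = 1 := by
    rcases hR.eq_or_lt with h1 | h1
    · exact Or.inr h1.symm
    · left
      have hlog' : 0 < Real.log R := Real.log_pos h1
      have e1 : Real.log R < Real.log (2 ^ n) := by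
        rw [Real.log_pow]
        have h3 : (1 / 2 : ℝ) < Real.log 2 := by
          have := Real.log_two_gt_d9
          linarith
        nlinarith
      exact (Real.log_lt_log_iff (by linarith) (by positivity)).1 e1
  have h3 : R < 2 ^ n := by
    rcases h2 with h2 | h2
    · exact h2
    · rw [h2]
      have hn0 : 0 < n := by
        have : (0 : ℝ) < n := lt_of_le_of_lt (by positivity) hn1
        exact_mod_cast this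
      exact one_lt_pow₀ (by norm_num) hn0.ne'
  rw [div_lt_iff₀ (by positivity)]
  calc cap ≤ R * lev := h
    _ < 2 ^ n * lev := mul_lt_mul_of_pos_right h3 hl
    _ = lev * 2 ^ n := mul_comm _ _

/-- logarithms cost any power -/
theorem log_inv_le {y : ℝ} (hy : 0 < y) : Real.log y⁻¹ ≤ y⁻¹ := by
  have := Real.log_le_sub_one_of_pos (inv_pos.2 hy)
  linarith


section units

variable {C0 cP M s u y z q : ℝ}

theorem sq_le {a b c : ℝ} (hc : 0 ≤ c) (h : a * b ≤ c ^ 2) : √(a * b) ≤ c :=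
  (Real.sqrt_le_sqrt h).trans (le_of_eq (Real.sqrt_sq hc))

theorem ypow (hy0 : 0 < y) (hy1 : y ≤ 1) {n : ℕ} (hn : 1 ≤ n) : y ^ n ≤ y := by
  calc y ^ n ≤ y ^ 1 := pow_le_pow_of_le_one hy0.le hy1 hn
    _ = y := pow_one y

theorem y29 (hy0 : 0 < y) (hy1 : y ≤ 1) : y ^ 29 * y⁻¹ ≤ y := by
  have : y ^ 29 * y⁻¹ = y ^ 28 := by field_simp
  rw [this]
  exact ypow hy0 hy1 (by norm_num)

/-- the maximum -/
theorem mx_le (hC0 : 1 ≤ C0) (hM : 0 < M) (hs : 0 < s) (hu : 0 < u) (hy0 : 0 < y) (hy1 : y ≤ 1)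
    {L : ℕ} {DC GD lev : ℝ} (h3 : 4 ^ L * DC ≤ C0 * (M * s) * y⁻¹)
    (h4 : 4 ^ L * GD ≤ C0 * (M * s * u) * y⁻¹) (hlev : u * y ^ 4 ≤ lev) :
    4 ^ L * max DC (GD / lev) ≤ C0 * (M * s) * (y ^ 5)⁻¹ := by
  have hσ0 : 0 < u * y ^ 4 := by positivity
  have hlev0 : 0 < lev := hσ0.trans_le hlev
  have h5 : y⁻¹ ≤ (y ^ 5)⁻¹ := by
    rw [inv_le_inv₀ hy0 (by positivity)]
    exact ypow hy0 hy1 (by norm_num)
  rw [mul_max_of_nonneg _ _ (by positivity)]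
  refine max_le (h3.trans ?_) ?_
  · exact mul_le_mul_of_nonneg_left h5 (by positivity)
  · rw [← mul_div_assoc]
    refine (div_le_div_of_nonneg_right h4 hlev0.le).trans ?_
    refine (div_le_div_of_nonneg_left (by positivity) hσ0 hlev).trans (le_of_eq ?_)
    field_simp

theorem key1 (hC0 : 1 ≤ C0) (hcP : 1 ≤ cP) (hM : 0 < M) (hs : 0 < s) (hu : 0 < u) (hy0 : 0 < y)
    (hy1 : y ≤ 1) {a b : ℝ} (hb : 0 ≤ b) (ha : a ≤ C0 * (M * s * u ^ 2) * y ^ 64)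
    (hb' : b ≤ C0 * (M * s) * (y ^ 5)⁻¹) :
    √(a * (8800 * cP * b)) ≤ √(8800 * cP) * C0 * (M * s * u) * y ^ 29 := by
  refine sq_le (by positivity) ?_
  have e1 : a * (8800 * cP * b) ≤ (C0 * (M * s * u ^ 2) * y ^ 64) *
      (8800 * cP * (C0 * (M * s) * (y ^ 5)⁻¹)) := by
    refine mul_le_mul ha ?_ (by positivity) (by positivity)
    exact mul_le_mul_of_nonneg_left hb' (by positivity)
  refine e1.trans ?_
  have hqq : √(8800 * cP) ^ 2 = 8800 * cP := Real.sq_sqrt (by positivity)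
  have e2 : (C0 * (M * s * u ^ 2) * y ^ 64) * (8800 * cP * (C0 * (M * s) * (y ^ 5)⁻¹)) =
      (8800 * cP) * C0 ^ 2 * (M * s * u) ^ 2 * (y ^ 64 * (y ^ 5)⁻¹) := by ring
  have e3 : y ^ 64 * (y ^ 5)⁻¹ = y ^ 59 := by field_simp
  have e4 : y ^ 59 ≤ y ^ 58 := pow_le_pow_of_le_one hy0.le hy1 (by norm_num)
  rw [e2, e3]
  calc (8800 * cP) * C0 ^ 2 * (M * s * u) ^ 2 * y ^ 59
      ≤ (8800 * cP) * C0 ^ 2 * (M * s * u) ^ 2 * y ^ 58 :=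
        mul_le_mul_of_nonneg_left e4 (by positivity)
    _ = (√(8800 * cP) ^ 2) * C0 ^ 2 * (M * s * u) ^ 2 * y ^ 58 := by rw [hqq]
    _ = (√(8800 * cP) * C0 * (M * s * u) * y ^ 29) ^ 2 := by ring

theorem key2 (hC0 : 1 ≤ C0) (hcP : 1 ≤ cP) (hM : 0 < M) (hs : 0 < s) (hu : 0 < u) (hy0 : 0 < y)
    (hy1 : y ≤ 1) {a b : ℝ} (hb : 0 ≤ b) (ha : a ≤ C0 * (M * s * u ^ 2) * y ^ 64)
    (hb' : b ≤ C0 * (M * s) * (y ^ 5)⁻¹) :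
    √a * √(8800 * cP * b) ≤ √(8800 * cP) * C0 * (M * s * u) * y ^ 29 := by
  rcases le_total 0 a with h0 | h0
  · rw [← Real.sqrt_mul h0]
    exact key1 hC0 hcP hM hs hu hy0 hy1 hb ha hb'
  · rw [Real.sqrt_eq_zero_of_nonpos h0, zero_mul]
    positivity

theorem term_a {B Λ U n : ℝ} (hB : 0 ≤ B) (hΛ : 0 ≤ Λ) (hU : 0 < U) (hy0 : 0 < y) (hy1 : y ≤ 1)
    {a : ℝ} (hn0 : 0 ≤ n) (ha : a ≤ B * U * y ^ 29) (hn : n ≤ Λ * y⁻¹) :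
    a * n ≤ B * Λ * (U * y) := by
  calc a * n ≤ (B * U * y ^ 29) * (Λ * y⁻¹) := mul_le_mul ha hn hn0 (by positivity)
    _ = B * Λ * U * (y ^ 29 * y⁻¹) := by ring
    _ ≤ B * Λ * U * y := mul_le_mul_of_nonneg_left (y29 hy0 hy1) (by positivity)
    _ = _ := by ring

theorem term3 (hC0 : 1 ≤ C0) (hM : 0 < M) (hs : 0 < s) (hu : 0 < u) (hy0 : 0 < y) (hy1 : y ≤ 1)
    {L : ℕ} {DA DC w : ℝ} (hDA : 0 ≤ DA) (hDC : 0 ≤ DC) (h1 : 4 ^ L * DA ≤ C0 * (M * s) * y⁻¹)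
    (h3 : 4 ^ L * DC ≤ C0 * (M * s) * y⁻¹) (hw : w ≤ C0 * (M * s) * y⁻¹) :
    150 * √(w * (4 ^ L * ((1 * (u * y ^ 4)) ^ 2 * DA + (u * y ^ 4) ^ 2 * DC))) ≤
      150 * (2 * C0) * ((M * s * u) * y) := by
  have h5 : √(w * (4 ^ L * ((1 * (u * y ^ 4)) ^ 2 * DA + (u * y ^ 4) ^ 2 * DC))) ≤
      2 * C0 * (M * s * u) * y ^ 3 := by
    refine sq_le (by positivity) ?_
    have e1 : 4 ^ L * ((1 * (u * y ^ 4)) ^ 2 * DA + (u * y ^ 4) ^ 2 * DC) ≤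
        (u * y ^ 4) ^ 2 * (2 * (C0 * (M * s) * y⁻¹)) := by
      have : (4 : ℝ) ^ L * ((1 * (u * y ^ 4)) ^ 2 * DA + (u * y ^ 4) ^ 2 * DC) =
          (u * y ^ 4) ^ 2 * (4 ^ L * DA + 4 ^ L * DC) := by ring
      rw [this]
      exact mul_le_mul_of_nonneg_left (by linarith) (by positivity)
    have e1' : 0 ≤ 4 ^ L * ((1 * (u * y ^ 4)) ^ 2 * DA + (u * y ^ 4) ^ 2 * DC) := by positivity
    have e2 : w * (4 ^ L * ((1 * (u * y ^ 4)) ^ 2 * DA + (u * y ^ 4) ^ 2 * DC)) ≤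
        (C0 * (M * s) * y⁻¹) * ((u * y ^ 4) ^ 2 * (2 * (C0 * (M * s) * y⁻¹))) :=
      mul_le_mul hw e1 e1' (by positivity)
    refine e2.trans ?_
    have e3 : (C0 * (M * s) * y⁻¹) * ((u * y ^ 4) ^ 2 * (2 * (C0 * (M * s) * y⁻¹))) =
        2 * (C0 ^ 2 * (M * s * u) ^ 2 * y ^ 6) := by field_simp
    rw [e3]
    have : 0 ≤ C0 ^ 2 * (M * s * u) ^ 2 * y ^ 6 := by positivity
    calc 2 * (C0 ^ 2 * (M * s * u) ^ 2 * y ^ 6) ≤ 4 * (C0 ^ 2 * (M * s * u) ^ 2 * y ^ 6) := by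
          linarith
      _ = (2 * C0 * (M * s * u) * y ^ 3) ^ 2 := by ring
  have h6 : y ^ 3 ≤ y := ypow hy0 hy1 (by norm_num)
  have h7 : 2 * C0 * (M * s * u) * y ^ 3 ≤ 2 * C0 * (M * s * u) * y :=
    mul_le_mul_of_nonneg_left h6 (by positivity)
  linarith

theorem term4 (hC0 : 1 ≤ C0) (hM : 0 < M) (hs : 0 < s) (hu : 0 < u) (hy0 : 0 < y) (hy1 : y ≤ 1)
    {D4 : ℝ} (hD4 : D4 ≤ 3 * (C0 * (M * s) * y⁻¹)) :
    9900 * D4 * (u * y ^ 4) ≤ 29700 * C0 * ((M * s * u) * y) := by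
  have h6 : y⁻¹ * y ^ 4 ≤ y := by
    have : y⁻¹ * y ^ 4 = y ^ 3 := by field_simp
    rw [this]
    exact ypow hy0 hy1 (by norm_num)
  calc 9900 * D4 * (u * y ^ 4) ≤ 9900 * (3 * (C0 * (M * s) * y⁻¹)) * (u * y ^ 4) := by
        refine mul_le_mul_of_nonneg_right (mul_le_mul_of_nonneg_left hD4 (by norm_num))
          (by positivity)
    _ = 29700 * C0 * (M * s * u) * (y⁻¹ * y ^ 4) := by ring
    _ ≤ 29700 * C0 * (M * s * u) * y := mul_le_mul_of_nonneg_left h6 (by positivity)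
    _ = _ := by ring

theorem term5 (hC0 : 1 ≤ C0) (hM : 0 < M) (hs : 0 < s) (hu : 0 < u) (hy0 : 0 < y) (hy1 : y ≤ 1)
    {D4 : ℝ} (hD4 : D4 ≤ 3 * (C0 * (M * s) * y⁻¹)) :
    √(550 * D4 * (4 * (C0 * (M * s * u ^ 2) * y ^ 64))) ≤ 100 * C0 * (M * s * u) * y ^ 29 := by
  refine sq_le (by positivity) ?_
  have e1 : 550 * D4 * (4 * (C0 * (M * s * u ^ 2) * y ^ 64)) ≤
      550 * (3 * (C0 * (M * s) * y⁻¹)) * (4 * (C0 * (M * s * u ^ 2) * y ^ 64)) := by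
    refine mul_le_mul_of_nonneg_right (mul_le_mul_of_nonneg_left hD4 (by norm_num))
      (by positivity)
  refine e1.trans ?_
  have e2 : 550 * (3 * (C0 * (M * s) * y⁻¹)) * (4 * (C0 * (M * s * u ^ 2) * y ^ 64)) =
      6600 * (C0 ^ 2 * (M * s * u) ^ 2 * y ^ 63) := by
    field_simp
    ring
  have e3 : y ^ 63 ≤ y ^ 58 := pow_le_pow_of_le_one hy0.le hy1 (by norm_num)
  rw [e2]
  calc 6600 * (C0 ^ 2 * (M * s * u) ^ 2 * y ^ 63) ≤ 10000 * (C0 ^ 2 * (M * s * u) ^ 2 * y ^ 58) := by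
        have h8 : C0 ^ 2 * (M * s * u) ^ 2 * y ^ 63 ≤ C0 ^ 2 * (M * s * u) ^ 2 * y ^ 58 :=
          mul_le_mul_of_nonneg_left e3 (by positivity)
        have h9 : 0 ≤ C0 ^ 2 * (M * s * u) ^ 2 * y ^ 58 := by positivity
        linarith
    _ = (100 * C0 * (M * s * u) * y ^ 29) ^ 2 := by ring

theorem term6 (hC0 : 1 ≤ C0) (hM : 0 < M) (hs : 0 < s) (hu : 0 < u) (hy0 : 0 < y) (hy1 : y ≤ 1)
    (hz0 : 0 < z) (hzy : z ≤ y ^ 64) {D4 κ : ℝ} (hD4 : D4 ≤ 3 * (C0 * (M * s) * y⁻¹))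
    (hD0 : 0 ≤ D4) (hκ0 : 0 ≤ κ) (hκ : κ ≤ C0 * (M * s) * z⁻¹) :
    36 * √(550 * D4 * κ) * (u * z) ≤ 36 * (50 * C0) * ((M * s * u) * y) := by
  have h5 : √(550 * D4 * κ) * z ≤ 50 * C0 * (M * s) * y := by
    have e0 : √(550 * D4 * κ) * z = √(550 * D4 * κ * z ^ 2) := by
      have e9 := Real.sqrt_mul (show 0 ≤ 550 * D4 * κ by positivity) (z ^ 2)
      rw [e9, Real.sqrt_sq hz0.le]
    rw [e0]
    refine sq_le (by positivity) ?_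
    have e1 : 550 * D4 * κ ≤ 550 * (3 * (C0 * (M * s) * y⁻¹)) * (C0 * (M * s) * z⁻¹) := by
      refine mul_le_mul (mul_le_mul_of_nonneg_left hD4 (by norm_num)) hκ hκ0 (by positivity)
    have e2 := mul_le_mul_of_nonneg_right e1 (sq_nonneg z)
    refine e2.trans ?_
    have e3 : 550 * (3 * (C0 * (M * s) * y⁻¹)) * (C0 * (M * s) * z⁻¹) * z ^ 2 =
        1650 * (C0 ^ 2 * (M * s) ^ 2) * (y⁻¹ * z) := by
      field_simp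
      ring
    have e4 : y⁻¹ * z ≤ y ^ 2 := by
      calc y⁻¹ * z ≤ y⁻¹ * y ^ 64 := mul_le_mul_of_nonneg_left hzy (by positivity)
        _ = y ^ 63 := by field_simp
        _ ≤ y ^ 2 := pow_le_pow_of_le_one hy0.le hy1 (by norm_num)
    rw [e3]
    calc 1650 * (C0 ^ 2 * (M * s) ^ 2) * (y⁻¹ * z) ≤ 2500 * (C0 ^ 2 * (M * s) ^ 2 * y ^ 2) := by
          have h8 : C0 ^ 2 * (M * s) ^ 2 * (y⁻¹ * z) ≤ C0 ^ 2 * (M * s) ^ 2 * y ^ 2 :=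
            mul_le_mul_of_nonneg_left e4 (by positivity)
          have h9 : 0 ≤ C0 ^ 2 * (M * s) ^ 2 * y ^ 2 := by positivity
          calc 1650 * (C0 ^ 2 * (M * s) ^ 2) * (y⁻¹ * z)
              = 1650 * (C0 ^ 2 * (M * s) ^ 2 * (y⁻¹ * z)) := by ring
            _ ≤ 1650 * (C0 ^ 2 * (M * s) ^ 2 * y ^ 2) := by linarith
            _ ≤ _ := by linarith
      _ = (50 * C0 * (M * s) * y) ^ 2 := by ring
  calc 36 * √(550 * D4 * κ) * (u * z) = 36 * (√(550 * D4 * κ) * z) * u := by ring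
    _ ≤ 36 * (50 * C0 * (M * s) * y) * u := by
        refine mul_le_mul_of_nonneg_right (mul_le_mul_of_nonneg_left h5 (by norm_num)) hu.le
    _ = _ := by ring

/-- the number of levels -/
noncomputable def nL (C0 c : ℝ) : ℝ := 3 + 2 * Real.log C0 + 2 * (2 * c + 5)

/-- the constant -/
noncomputable def cZ (C0 cP Λ : ℝ) : ℝ :=
  6 * (√(8800 * cP) * C0) * Λ + 12 * √(8800 * cP) * C0 * Λ +
    (12 * √(8800 * cP) * C0 * Λ + 150 * (2 * C0) +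
    (29700 * C0 + 6 * (100 * C0) * (Λ + Λ) + 36 * (50 * C0)))

theorem cZ_nonneg {C0 cP Λ : ℝ} (hC0 : 1 ≤ C0) (hΛ : 0 ≤ Λ) : 0 ≤ cZ C0 cP Λ := by
  unfold cZ
  positivity

/-- the number of levels in units -/
theorem nlev {c Λ cap lev : ℝ} (hC0 : 1 ≤ C0) (hy0 : 0 < y) (hy1 : y ≤ 1)
    (hΛ : 3 + 2 * Real.log C0 + 2 * c ≤ Λ) {R : ℝ} (hR : 1 ≤ R)
    (hlR : Real.log R ≤ c * y⁻¹) (hl : 0 < lev) (h : cap ≤ C0 * R * lev) :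
    ∃ n : ℕ, cap / 2 ^ (n - 1) < lev ∧ (n : ℝ) ≤ Λ * y⁻¹ := by
  have hyi : 1 ≤ y⁻¹ := (one_le_inv₀ hy0).2 hy1
  obtain ⟨n, h1, h2⟩ := levels hl (one_le_mul_of_one_le_of_one_le hC0 hR) h
  refine ⟨n, h1, h2.trans ?_⟩
  rw [Real.log_mul (by positivity) (by positivity)]
  have hlC : 0 ≤ Real.log C0 := Real.log_nonneg hC0
  have e1 : Real.log C0 ≤ Real.log C0 * y⁻¹ := le_mul_of_one_le_right hlC hyi
  have e2 : (3 + 2 * Real.log C0 + 2 * c) * y⁻¹ ≤ Λ * y⁻¹ :=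
    mul_le_mul_of_nonneg_right hΛ (by positivity)
  nlinarith

end units

/-- the right side -/
theorem rhs_le {C0 cP Λ M s u y z : ℝ} (hC0 : 1 ≤ C0) (hcP : 1 ≤ cP) (hΛ0 : 0 ≤ Λ) (hM : 0 < M)
    (hs : 0 < s) (hu : 0 < u) (hy0 : 0 < y) (hy1 : y ≤ 1) (hz0 : 0 < z) (hzy : z ≤ y ^ 64)
    {L : ℕ} {GA DA DC v w κ nA nB nC nC' D4 : ℝ} (hDA : 0 ≤ DA) (hDC : 0 < DC)
    (h1 : 4 ^ L * DA ≤ C0 * (M * s) * y⁻¹)
    (h3 : 4 ^ L * DC ≤ C0 * (M * s) * y⁻¹) (h4 : 4 ^ L * √(GA * DC) ≤ C0 * (M * s * u) * y⁻¹)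
    (hv : v ≤ C0 * (M * s * u ^ 2) * y ^ 64) (hw : w ≤ C0 * (M * s) * y⁻¹)
    (hκ0 : 0 ≤ κ) (hκ : κ ≤ C0 * (M * s) * z⁻¹) (hD0 : 0 ≤ D4)
    (hD4 : D4 ≤ 3 * (C0 * (M * s) * y⁻¹)) (nA0 : 0 ≤ nA) (nB0 : 0 ≤ nB) (nC0 : 0 ≤ nC)
    (nC0' : 0 ≤ nC') (nLA : nA ≤ Λ * y⁻¹) (nLB : nB ≤ Λ * y⁻¹) (nLC : nC ≤ Λ * y⁻¹)
    (nLC' : nC' ≤ Λ * y⁻¹) :
    6 * √(v * (8800 * cP * (4 ^ L * max DC (1 / (u * y ^ 4) * √(GA * DC))))) * nA +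
      12 * √(8800 * cP) * C0 * (M * s * u) * y ^ 29 * nC' +
        (12 * √(8800 * cP) * C0 * (M * s * u) * y ^ 29 * nC' +
          150 * √(w * (4 ^ L * ((1 * (u * y ^ 4)) ^ 2 * DA + (u * y ^ 4) ^ 2 * DC))) +
          (9900 * D4 * (u * y ^ 4) +
            6 * √(550 * D4 * (4 * (C0 * (M * s * u ^ 2) * y ^ 64))) * (nB + nC) +
            36 * √(550 * D4 * κ) * (u * z))) ≤
      cZ C0 cP Λ * (M * s * u) * y := by
  unfold cZ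
  have hU0 : 0 < M * s * u := by positivity
  have hm := mx_le hC0 hM hs hu hy0 hy1 h3 h4 (le_refl (u * y ^ 4))
  have e1 : 1 / (u * y ^ 4) * √(GA * DC) = √(GA * DC) / (u * y ^ 4) := by ring
  rw [e1]
  have hmn : 0 ≤ 4 ^ L * max DC (√(GA * DC) / (u * y ^ 4)) :=
    mul_nonneg (by positivity) (hDC.le.trans (le_max_left _ _))
  have h5 := key1 hC0 hcP hM hs hu hy0 hy1 hmn hv hm
  have t1 : 6 * √(v * (8800 * cP * (4 ^ L * max DC (√(GA * DC) / (u * y ^ 4))))) * nA ≤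
      6 * (√(8800 * cP) * C0) * Λ * ((M * s * u) * y) :=
    term_a (B := 6 * (√(8800 * cP) * C0)) (by positivity) hΛ0 hU0 hy0 hy1 nA0
      ((mul_le_mul_of_nonneg_left h5 (by norm_num)).trans (le_of_eq (by ring))) nLA
  have t2 : 12 * √(8800 * cP) * C0 * (M * s * u) * y ^ 29 * nC' ≤
      12 * √(8800 * cP) * C0 * Λ * ((M * s * u) * y) :=
    term_a (B := 12 * √(8800 * cP) * C0) (by positivity) hΛ0 hU0 hy0 hy1 nC0' le_rfl nLC'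
  have t3 := term3 hC0 hM hs hu hy0 hy1 hDA hDC.le h1 h3 hw
  have t4 := term4 hC0 hM hs hu hy0 hy1 hD4
  have t5' := term5 hC0 hM hs hu hy0 hy1 hD4
  have t5 : 6 * √(550 * D4 * (4 * (C0 * (M * s * u ^ 2) * y ^ 64))) *
      (nB + nC) ≤ 6 * (100 * C0) * (Λ + Λ) * ((M * s * u) * y) :=
    term_a (B := 6 * (100 * C0)) (by positivity) (by positivity) hU0 hy0 hy1 (by positivity)
      ((mul_le_mul_of_nonneg_left t5' (by norm_num)).trans (le_of_eq (by ring)))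
      (by rw [add_mul]; exact add_le_add nLB nLC)
  have t6 := term6 hC0 hM hs hu hy0 hy1 hz0 hzy hD4 hD0 hκ0 hκ
  refine (add_le_add (add_le_add t1 t2) (add_le_add (add_le_add t2 t3)
    (add_le_add (add_le_add t4 t5) t6))).trans (le_of_eq ?_)
  ring

/-- the four numbers of levels -/
theorem levs {C0 c : ℝ} (hC0 : 1 ≤ C0) (hc : 0 ≤ c) {u y z cA cB cC : ℝ} (hu : 0 < u) (hy0 : 0 < y)
    (hy1 : y ≤ 1) (hz0 : 0 < z) (hz1 : z ≤ 1) (lz : Real.log z⁻¹ ≤ c * y⁻¹)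
    (hcA : cA ≤ C0 * u * y⁻¹) (hcB : cB ≤ C0 * u * z⁻¹) (hcC : cC ≤ C0 * u * z⁻¹) :
    ∃ LA LB LC LC' : ℕ, cA / 2 ^ (LA - 1) < u * y ^ 4 ∧ cB / 2 ^ (LB - 1) < u * z ∧
      cC / 2 ^ (LC - 1) < u * z ∧ cC / 2 ^ (LC' - 1) < u * y ^ 4 ∧
      (LA : ℝ) ≤ (3 + 2 * Real.log C0 + 2 * (2 * c + 5)) * y⁻¹ ∧
      (LB : ℝ) ≤ (3 + 2 * Real.log C0 + 2 * (2 * c + 5)) * y⁻¹ ∧
      (LC : ℝ) ≤ (3 + 2 * Real.log C0 + 2 * (2 * c + 5)) * y⁻¹ ∧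
      (LC' : ℝ) ≤ (3 + 2 * Real.log C0 + 2 * (2 * c + 5)) * y⁻¹ := by
  have hyi : 1 ≤ y⁻¹ := (one_le_inv₀ hy0).2 hy1
  have hzi : 1 ≤ z⁻¹ := (one_le_inv₀ hz0).2 hz1
  have ly : Real.log y⁻¹ ≤ y⁻¹ := log_inv_le hy0
  have hcy : 0 ≤ c * y⁻¹ := by positivity
  have hσ0 : 0 < u * y ^ 4 := by positivity
  have hσ₀0 : 0 < u * z := by positivity
  have l2 : Real.log ((z⁻¹) ^ 2) ≤ (2 * c + 5) * y⁻¹ := by
    rw [Real.log_pow]; push_cast; nlinarith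
  obtain ⟨LA, hLA, nLA⟩ := nlev (c := 2 * c + 5) hC0 hy0 hy1 le_rfl
    (R := (y⁻¹) ^ 5) (one_le_pow₀ hyi)
    (by rw [Real.log_pow]; push_cast; nlinarith) hσ0 (cap := cA)
    (hcA.trans (le_of_eq (by field_simp)))
  obtain ⟨LB, hLB, nLB⟩ := nlev (c := 2 * c + 5) hC0 hy0 hy1 le_rfl
    (R := (z⁻¹) ^ 2) (one_le_pow₀ hzi) l2 hσ₀0 (cap := cB)
    (hcB.trans (le_of_eq (by field_simp)))
  obtain ⟨LC, hLC, nLC⟩ := nlev (c := 2 * c + 5) hC0 hy0 hy1 le_rfl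
    (R := (z⁻¹) ^ 2) (one_le_pow₀ hzi) l2 hσ₀0 (cap := cC)
    (hcC.trans (le_of_eq (by field_simp)))
  obtain ⟨LC', hLC', nLC'⟩ := nlev (c := 2 * c + 5) hC0 hy0 hy1 le_rfl
    (R := z⁻¹ * (y⁻¹) ^ 4) (one_le_mul_of_one_le_of_one_le hzi (one_le_pow₀ hyi))
    (by
      rw [Real.log_mul (by positivity) (by positivity), Real.log_pow]; push_cast; nlinarith)
    hσ0 (cap := cC) (hcC.trans (le_of_eq (by field_simp)))
  exact ⟨LA, LB, LC, LC', hLA, hLB, hLC, hLC', nLA, nLB, nLC, nLC'⟩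

/-- the constant of the `C` steps -/
theorem kc_le {C0 cP M s u y : ℝ} (hC0 : 1 ≤ C0) (hcP : 1 ≤ cP) (hM : 0 < M)
    (hs : 0 < s) (hu : 0 < u) (hy0 : 0 < y) (hy1 : y ≤ 1) {L : ℕ} {GA DC qL qF lev : ℝ}
    (hDC : 0 < DC) (h3 : 4 ^ L * DC ≤ C0 * (M * s) * y⁻¹)
    (h4 : 4 ^ L * √(GA * DC) ≤ C0 * (M * s * u) * y⁻¹)
    (hqL : qL ≤ C0 * (M * s * u ^ 2) * y ^ 64) (hqF : qF ≤ C0 * (M * s * u ^ 2) * y ^ 64)
    (he : u * y ^ 4 ≤ lev) :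
    6 * (√qL + √qF) * √(8800 * cP * (4 ^ L * max (DC / 1 ^ 2) (√(GA * DC) / lev))) ≤
      12 * √(8800 * cP) * C0 * (M * s * u) * y ^ 29 := by
  rw [one_pow, div_one]
  have hmn : 0 ≤ 4 ^ L * max DC (√(GA * DC) / lev) :=
    mul_nonneg (by positivity) (hDC.le.trans (le_max_left _ _))
  have hm := mx_le hC0 hM hs hu hy0 hy1 h3 h4 he
  have k1 := key2 hC0 hcP hM hs hu hy0 hy1 hmn hqL hm
  have k2 := key2 hC0 hcP hM hs hu hy0 hy1 hmn hqF hm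
  have e3 : ∀ a b d : ℝ, 6 * (a + b) * d = 6 * (a * d + b * d) := fun a b d => by ring
  rw [e3]
  refine (mul_le_mul_of_nonneg_left (add_le_add k1 k2) (by norm_num)).trans (le_of_eq ?_)
  ring

/-- the numbers in the units `y = x ^ (γ / 64)`, `z = x ^ A` -/
theorem numY {C0 cP c : ℝ} (hC0 : 1 ≤ C0) (hcP : 1 ≤ cP) (hc : 0 ≤ c) :
    ∃ C₁ : ℝ, 0 ≤ C₁ ∧ ∀ (M s u y z : ℝ), 0 < M → 0 < s → 0 < u → 0 < y → y ≤ 1 → 0 < z →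
    z ≤ y ^ 64 → Real.log z⁻¹ ≤ c * y⁻¹ →
    ∀ (L : ℕ) (GA DA DB DC v w κ cA cB cC : ℝ) (qL qF : ℕ → ℝ),
      0 ≤ DA → 0 ≤ DB → 0 < DC →
      4 ^ L * DA ≤ C0 * (M * s) * y⁻¹ → 4 ^ L * DB ≤ C0 * (M * s) * y⁻¹ →
      4 ^ L * DC ≤ C0 * (M * s) * y⁻¹ → 4 ^ L * √(GA * DC) ≤ C0 * (M * s * u) * y⁻¹ →
      v ≤ C0 * (M * s * u ^ 2) * y ^ 64 → w ≤ C0 * (M * s) * y⁻¹ →
      (∀ e, qL e ≤ C0 * (M * s * u ^ 2) * y ^ 64) → (∀ e, qF e ≤ C0 * (M * s * u ^ 2) * y ^ 64) →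
      0 ≤ κ → κ ≤ C0 * (M * s) * z⁻¹ →
      cA ≤ C0 * u * y⁻¹ → cB ≤ C0 * u * z⁻¹ → cC ≤ C0 * u * z⁻¹ →
      ∃ (D Q σ σ₀ κC : ℝ) (LA LB LC LC' : ℕ),
        DA + DB ≤ D ∧ DA + DC ≤ D ∧ 0 < σ ∧ 0 ≤ κC ∧ 0 ≤ σ₀ ∧
        (∀ e, 1 * σ < cC / 2 ^ (e - 1) → 6 * (√(qL e) + √(qF e)) *
          √(8800 * cP * (4 ^ L * max (DC / 1 ^ 2) (√(GA * DC) / (cC / 2 ^ (e - 1))))) ≤ κC) ∧
        (∀ e, cC / 2 ^ (e - 1) ≤ 1 * σ → 4 * qL e ≤ Q) ∧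
        cA / 2 ^ (LA - 1) < σ ∧ cB / 2 ^ (LB - 1) ≤ σ₀ ∧ cC / 2 ^ (LC - 1) ≤ σ₀ ∧
        cC / 2 ^ (LC' - 1) ≤ 1 * σ ∧
        6 * √(v * (8800 * cP * (4 ^ L * max DC (1 / σ * √(GA * DC))))) * LA + κC * LC' +
          (κC * LC' + 150 * √(w * (4 ^ L * ((1 * σ) ^ 2 * DA + σ ^ 2 * DC))) +
            (9900 * (4 ^ L * D) * σ + 6 * √(550 * (4 ^ L * D) * Q) * (LB + LC) +
              36 * √(550 * (4 ^ L * D) * κ) * σ₀)) ≤ C₁ * (M * s * u) * y := by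
  have hlC : 0 ≤ Real.log C0 := Real.log_nonneg hC0
  have hΛ0 : 0 ≤ 3 + 2 * Real.log C0 + 2 * (2 * c + 5) := by positivity
  refine ⟨cZ C0 cP (3 + 2 * Real.log C0 + 2 * (2 * c + 5)), cZ_nonneg hC0 hΛ0, ?_⟩
  · intro M s u y z hM hs hu hy0 hy1 hz0 hzy lz L GA DA DB DC v w κ cA cB cC qL qF hDA hDB hDC
      h1 h2 h3 h4 hv hw hqL hqF hκ0 hκ hcA hcB hcC'
    have hz1 : z ≤ 1 := hzy.trans (pow_le_one₀ hy0.le hy1)
    obtain ⟨LA, LB, LC, LC', hLA, hLB, hLC, hLC', nLA, nLB, nLC, nLC'⟩ :=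
      levs hC0 hc hu hy0 hy1 hz0 hz1 lz hcA hcB hcC'
    have hDpos : 0 ≤ 4 ^ L * (DA + DB + DC) := by positivity
    have hD4 : 4 ^ L * (DA + DB + DC) ≤ 3 * (C0 * (M * s) * y⁻¹) := by
      have : (4 : ℝ) ^ L * (DA + DB + DC) = 4 ^ L * DA + 4 ^ L * DB + 4 ^ L * DC := by ring
      rw [this]
      linarith
    exact ⟨DA + DB + DC, 4 * (C0 * (M * s * u ^ 2) * y ^ 64), u * y ^ 4, u * z,
      12 * √(8800 * cP) * C0 * (M * s * u) * y ^ 29, LA, LB, LC, LC', by linarith, by linarith,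
      by positivity, by positivity, by positivity,
      fun e he => kc_le hC0 hcP hM hs hu hy0 hy1 hDC h3 h4 (hqL e) (hqF e)
        ((one_mul (u * y ^ 4)).symm.le.trans he.le),
      fun e _ => mul_le_mul_of_nonneg_left (hqL e) (by norm_num), hLA, hLB.le, hLC.le,
      hLC'.le.trans (one_mul (u * y ^ 4)).symm.le,
      rhs_le hC0 hcP hΛ0 hM hs hu hy0 hy1 hz0 hzy hDA hDC h1 h3 h4 hv hw hκ0 hκ hDpos hD4
        (Nat.cast_nonneg _) (Nat.cast_nonneg _) (Nat.cast_nonneg _) (Nat.cast_nonneg _) nLA nLB nLC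
        nLC'⟩

/-- **The numbers of the gap part.** -/
theorem numTZ {γ A C0 cP : ℝ} (hγ : 0 < γ) (hγA : γ ≤ A) (hC0 : 1 ≤ C0) (hcP : 1 ≤ cP) :
    ∃ C₁ : ℝ, 0 ≤ C₁ ∧ ∀ (M s u x : ℝ), 0 < M → 0 < s → 0 < u → 0 < x → x ≤ 1 →
    ∀ (L : ℕ) (GA DA DB DC v w κ cA cB cC : ℝ) (qL qF : ℕ → ℝ),
      0 ≤ DA → 0 ≤ DB → 0 < DC →
      4 ^ L * DA ≤ C0 * (M * s) * x ^ (-(γ / 64)) →
      4 ^ L * DB ≤ C0 * (M * s) * x ^ (-(γ / 64)) →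
      4 ^ L * DC ≤ C0 * (M * s) * x ^ (-(γ / 64)) →
      4 ^ L * √(GA * DC) ≤ C0 * (M * s * u) * x ^ (-(γ / 64)) →
      v ≤ C0 * (M * s * u ^ 2) * x ^ γ →
      w ≤ C0 * (M * s) * x ^ (-(γ / 64)) →
      (∀ e, qL e ≤ C0 * (M * s * u ^ 2) * x ^ γ) → (∀ e, qF e ≤ C0 * (M * s * u ^ 2) * x ^ γ) →
      0 ≤ κ → κ ≤ C0 * (M * s) * x ^ (-A) →
      cA ≤ C0 * u * x ^ (-(γ / 64)) → cB ≤ C0 * u * x ^ (-A) → cC ≤ C0 * u * x ^ (-A) →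
      ∃ (D Q σ σ₀ κC : ℝ) (LA LB LC LC' : ℕ),
        DA + DB ≤ D ∧ DA + DC ≤ D ∧ 0 < σ ∧ 0 ≤ κC ∧ 0 ≤ σ₀ ∧
        (∀ e, 1 * σ < cC / 2 ^ (e - 1) → 6 * (√(qL e) + √(qF e)) *
          √(8800 * cP * (4 ^ L * max (DC / 1 ^ 2) (√(GA * DC) / (cC / 2 ^ (e - 1))))) ≤ κC) ∧
        (∀ e, cC / 2 ^ (e - 1) ≤ 1 * σ → 4 * qL e ≤ Q) ∧
        cA / 2 ^ (LA - 1) < σ ∧ cB / 2 ^ (LB - 1) ≤ σ₀ ∧ cC / 2 ^ (LC - 1) ≤ σ₀ ∧
        cC / 2 ^ (LC' - 1) ≤ 1 * σ ∧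
        6 * √(v * (8800 * cP * (4 ^ L * max DC (1 / σ * √(GA * DC))))) * LA + κC * LC' +
          (κC * LC' + 150 * √(w * (4 ^ L * ((1 * σ) ^ 2 * DA + σ ^ 2 * DC))) +
            (9900 * (4 ^ L * D) * σ + 6 * √(550 * (4 ^ L * D) * Q) * (LB + LC) +
              36 * √(550 * (4 ^ L * D) * κ) * σ₀)) ≤ C₁ * (M * s * u) * x ^ (γ / 64) := by
  have hA : 0 < A := by linarith
  obtain ⟨C₁, hC₁, H⟩ := numY (c := A * (64 / γ)) hC0 hcP (by positivity)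
  refine ⟨C₁, hC₁, ?_⟩
  intro M s u x hM hs hu hx hx1 L GA DA DB DC v w κ cA cB cC qL qF hDA hDB hDC h1 h2 h3 h4
    hv hw hqL hqF hκ0 hκ hcA hcB hcC'
  have hy0 : 0 < x ^ (γ / 64) := Real.rpow_pos_of_pos hx _
  have hz0 : 0 < x ^ A := Real.rpow_pos_of_pos hx _
  have e64 : x ^ γ = (x ^ (γ / 64)) ^ 64 := by
    rw [← Real.rpow_natCast, ← Real.rpow_mul hx.le]
    congr 1
    norm_num
  have eym : x ^ (-(γ / 64)) = (x ^ (γ / 64))⁻¹ := by rw [Real.rpow_neg hx.le]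
  have ezm : x ^ (-A) = (x ^ A)⁻¹ := by rw [Real.rpow_neg hx.le]
  rw [eym] at h1 h2 h3 h4 hw hcA
  rw [e64] at hv hqL hqF
  rw [ezm] at hκ hcB hcC'
  have lz : Real.log (x ^ A)⁻¹ ≤ A * (64 / γ) * (x ^ (γ / 64))⁻¹ := by
    have e1 : Real.log (x ^ A)⁻¹ = A * (64 / γ) * Real.log (x ^ (γ / 64))⁻¹ := by
      rw [Real.log_inv, Real.log_inv, Real.log_rpow hx, Real.log_rpow hx]
      field_simp
    rw [e1]
    exact mul_le_mul_of_nonneg_left (log_inv_le hy0) (by positivity)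
  exact H M s u (x ^ (γ / 64)) (x ^ A) hM hs hu hy0 (Real.rpow_le_one hx.le hx1 (by positivity))
    hz0 (by rw [← e64]; exact Real.rpow_le_rpow_of_exponent_ge hx hx1 hγA) lz L GA DA DB DC v w κ
    cA cB cC qL qF hDA hDB hDC h1 h2 h3 h4 hv hw hqL hqF hκ0 hκ hcA hcB hcC'

end Vale.Agent.P141.H490.NumTZ
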